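import Vale.Agent.P067.H301.Top

/-!
# P067, stronger form: cosystolic expansion of the skeleta
-/

set_option autoImplicit false

open Finset

namespace Vale.Agent.P067

attribute [local instance] Classical.propDecidable

attribute [-instance] Subtype.instDecidableEq

attribute [-instance] Submodule.decidableEq

theorem IsCosystolicExpander.mono {V : Type} [Fintype V] {X : AbstractSimplicialComplex V}
    {d : ℕ} {ε ε' : ℝ} (h : IsCosystolicExpander X d ε) (hle : ε' ≤ ε) :
    IsCosystolicExpander X d ε' := by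
  intro i hi
  refine ⟨fun f => ?_, fun f hf hf' => hle.trans ((h i hi).2 f hf hf')⟩
  refine le_trans (mul_le_mul_of_nonneg_right hle ?_) ((h i hi).1 f)
  refine Real.sInf_nonneg ?_
  rintro _ ⟨b, _, rfl⟩
  exact cnorm_nonneg' X d _

/-- From local expansion to cosystolic expansion, for the weights of the top simplices. -/
theorem cosystolic_of_local (N : ℕ) (β : ℝ) (hβ : 0 < β) :
    ∃ lam : ℝ, 0 < lam ∧ ∀ D' : ℕ, ∃ ε : ℝ, 0 < ε ∧
      ∀ (α : Type) [Fintype α] (top : Finset (Finset α)), (∀ C ∈ top, C.card = N) →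
        (∀ v : α, W top {v} ≤ D') → LinkExp top N β → EdgeMix top N lam →
        ∀ s : ℕ, 1 ≤ s → s + 2 ≤ N →
          (∀ f : Finset α → ZMod 2, ∃ z : Finset α → ZMod 2,
            (∀ ρ : Finset α, ρ.card = s + 1 → 0 < W top ρ → dd z ρ = 0) ∧
            ε * (nrm top s (fun τ => f τ + z τ) : ℝ) ≤ (nrm top (s + 1) (dd f) : ℝ)) ∧
          ∀ f : Finset α → ZMod 2,
            (∀ ρ : Finset α, ρ.card = s + 1 → 0 < W top ρ → dd f ρ = 0) →
            (¬ ∃ e : Finset α → ZMod 2, ∀ τ : Finset α, τ.card = s → 0 < W top τ →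
              f τ = dd e τ) →
            ε * top.card ≤ (nrm top s f : ℝ) := by
  obtain ⟨lam, μ, hlam, hμ, H⟩ := small_locMin_cocycle_zero N β hβ
  refine ⟨lam, hlam, fun D' => ?_⟩
  set κ : ℝ := 1 / (2 ^ N * D' + 1) with hκ
  have hκ0 : 0 < κ := by positivity
  have hκ1 : κ * (2 ^ N * D') < 1 := by
    rw [hκ, one_div, inv_mul_lt_iff₀ (by positivity)]
    linarith
  refine ⟨min (min κ (μ / 2 ^ N)) μ, lt_min (lt_min hκ0 (by positivity)) hμ, ?_⟩
  intro α _ top hN hD hL hE s hs hsN
  constructor
  · intro f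
    by_cases hsmall : (nrm top (s + 1) (dd f) : ℝ) < μ * top.card
    · obtain ⟨h, hmin⟩ := Finite.exists_min fun h : Finset α → ZMod 2 =>
        (nrm top (s + 1) (dd f + dd h) : ℝ) + κ * nrm top s h
      have h0 := hmin 0
      have e0 : dd f + dd (0 : Finset α → ZMod 2) = dd f := by
        funext ρ
        simp [dd]
      have e1 : nrm top s (0 : Finset α → ZMod 2) = 0 := by simp [nrm]
      simp only [e0, e1, Nat.cast_zero, mul_zero, add_zero] at h0
      have hn1 : (0 : ℝ) ≤ κ * nrm top s h := by (clear * -; positivity)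
      have hn2 : (0 : ℝ) ≤ nrm top (s + 1) (dd f + dd h) := Nat.cast_nonneg _
      have hloc := LocMin_of_min hN hD s hκ0 hκ1 (dd f) h hmin
      have hz := H α top hN hL hE (s + 1) (dd f + dd h) (by omega) (by omega) (fun ρ _ _ => by
        rw [dd_add, dd_dd, dd_dd]; rfl) hloc (by linarith only [hsmall, h0, hn1])
      refine ⟨f + h, ?_, ?_⟩
      · intro ρ hρ hw
        rw [dd_add]
        by_contra hne
        rw [nrm, sum_eq_zero_iff] at hz
        have := hz ρ (by simp only [mem_filter, mem_univ, true_and]; exact ⟨hρ, hne⟩)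
        omega
      · have e2 : (fun τ => f τ + (f + h) τ) = h := by
          funext τ
          rw [Pi.add_apply, ← add_assoc, show f τ + f τ = 0 from CharTwo.add_self_eq_zero _,
            zero_add]
        rw [e2]
        refine (mul_le_mul_of_nonneg_right ((min_le_left _ _).trans (min_le_left _ _))
          (Nat.cast_nonneg _)).trans ?_
        linarith only [h0, hn2]
    · rw [not_lt] at hsmall
      refine ⟨0, fun ρ _ _ => by simp [dd], ?_⟩
      have e0 : (fun τ => f τ + (0 : Finset α → ZMod 2) τ) = f := by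
        funext ρ
        simp
      rw [e0]
      have h1 : (nrm top s f : ℝ) ≤ 2 ^ N * top.card := by exact_mod_cast nrm_le_card hN s f
      calc min (min κ (μ / 2 ^ N)) μ * (nrm top s f : ℝ)
          ≤ μ / 2 ^ N * (2 ^ N * top.card) :=
            mul_le_mul ((min_le_left _ _).trans (min_le_right _ _)) h1 (Nat.cast_nonneg _)
              (by positivity)
        _ = μ * top.card := by (clear * - hμ; field_simp)
        _ ≤ _ := hsmall
  · intro f hf hne
    obtain ⟨s', rfl⟩ : ∃ s', s = s' + 1 := ⟨s - 1, by omega⟩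
    by_contra hlt
    rw [not_le] at hlt
    have hlt' : (nrm top (s' + 1) f : ℝ) < μ * top.card :=
      hlt.trans_le (mul_le_mul_of_nonneg_right (min_le_right _ _) (Nat.cast_nonneg _))
    obtain ⟨h, hmin⟩ := Finite.exists_min fun h : Finset α → ZMod 2 =>
      (nrm top (s' + 1) (f + dd h) : ℝ) + κ * nrm top s' h
    have h0 := hmin 0
    have e0 : f + dd (0 : Finset α → ZMod 2) = f := by
      funext ρ
      simp [dd]
    have e1 : nrm top s' (0 : Finset α → ZMod 2) = 0 := by simp [nrm]
    simp only [e0, e1, Nat.cast_zero, mul_zero, add_zero] at h0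
    have hn1 : (0 : ℝ) ≤ κ * nrm top s' h := by (clear * -; positivity)
    have hloc := LocMin_of_min hN hD s' hκ0 hκ1 f h hmin
    have hz := H α top hN hL hE (s' + 1) (f + dd h) (by omega) (by omega) (fun ρ hρ hw => by
      rw [dd_add, dd_dd, Pi.add_apply, hf ρ hρ hw]; rfl) hloc (by linarith only [hlt', h0, hn1])
    apply hne
    refine ⟨h, fun τ hτ hw => ?_⟩
    by_contra hne'
    rw [nrm, sum_eq_zero_iff] at hz
    have := hz τ (by
      simp only [mem_filter, mem_univ, true_and]
      refine ⟨hτ, fun h1 => hne' ?_⟩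
      rw [Pi.add_apply] at h1
      exact CharTwo.add_eq_zero.1 h1)
    omega

/-- Cosystolic expansion of the `d`-skeleton, with the official weights. -/
theorem skelX_cosystolic {α : Type} [Fintype α] (top : Finset (Finset α)) (d : ℕ) {N D' : ℕ}
    (hN : ∀ C ∈ top, C.card = N) (hdN : d + 2 ≤ N) (hne : top.Nonempty)
    (hD : ∀ v : α, W top {v} ≤ D') {ε0 : ℝ} (h0 : 0 < ε0)
    (hexp : ∀ s : ℕ, 1 ≤ s → s ≤ d →
      (∀ f : Finset α → ZMod 2, ∃ z : Finset α → ZMod 2,
        (∀ ρ : Finset α, ρ.card = s + 1 → 0 < W top ρ → dd z ρ = 0) ∧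
        ε0 * (nrm top s (fun τ => f τ + z τ) : ℝ) ≤ (nrm top (s + 1) (dd f) : ℝ)) ∧
      ∀ f : Finset α → ZMod 2,
        (∀ ρ : Finset α, ρ.card = s + 1 → 0 < W top ρ → dd f ρ = 0) →
        (¬ ∃ e : Finset α → ZMod 2, ∀ τ : Finset α, τ.card = s → 0 < W top τ →
          f τ = dd e τ) →
        ε0 * top.card ≤ (nrm top s f : ℝ)) :
    IsCosystolicExpander (skelX top d) d (ε0 / ((D' + 1) * 2 ^ (d + 1) * 2 ^ N)) := by
  intro i hi
  have ext : ∀ f : Face (skelX top d) i → ZMod 2, ∃ F : Finset α → ZMod 2,
      ∀ s : Face (skelX top d) i, F (up top s.1) = f s := by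
    intro f
    refine ⟨fun τ => if h : ∃ s : Face (skelX top d) i, up top s.1 = τ then f h.choose else 0, ?_⟩
    intro s
    have h : ∃ s' : Face (skelX top d) i, up top s'.1 = up top s.1 := ⟨s, rfl⟩
    simp only
    rw [dif_pos h]
    congr 1
    exact Subtype.ext (up_injective top h.choose_spec)
  have hcob : ∀ (f : Face (skelX top d) i → ZMod 2) (F : Finset α → ZMod 2),
      (∀ s : Face (skelX top d) i, F (up top s.1) = f s) →
      ∀ t, cobd (skelX top d) i f t = dd F (up top t.1) := by
    intro f F hF t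
    rw [dd_up top d F t, cobd]
    exact sum_congr rfl fun s _ => (hF s).symm
  obtain ⟨hx1, hx2⟩ := hexp (i + 1) (by omega) (by omega)
  constructor
  · intro f
    obtain ⟨F, hF⟩ := ext f
    obtain ⟨z, hz, he⟩ := hx1 F
    set a : Face (skelX top d) i → ZMod 2 := fun s => z (up top s.1) with ha
    have hmem : a ∈ cocs (skelX top d) i := by
      intro t
      rw [hcob a z (fun s => rfl) t]
      exact hz _ (by rw [card_up]; exact t.2.2) t.2.1.2.2
    have h1 := cdist_le (skelX top d) d f hmem
    have h2 := cnorm_le top d hN hi.le (f - a) (fun τ => F τ + z τ) (fun s => by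
      rw [hF, Pi.sub_apply, ha]
      exact (CharTwo.sub_eq_add _ _).symm)
    have h3 := le_cnorm top d hN hdN hD (i := i + 1) hi (cobd (skelX top d) i f) (dd F) (fun t =>
      (hcob f F hF t).symm)
    refine le_trans ?_ h3
    set c : ℝ := (Fintype.card (Face (skelX top d) d) : ℝ)⁻¹ with hc
    have hc0 : 0 ≤ c := by (clear * -; positivity)
    calc ε0 / ((D' + 1) * 2 ^ (d + 1) * 2 ^ N) * cdist (skelX top d) d f (cocs (skelX top d) i)
        ≤ ε0 / ((D' + 1) * 2 ^ (d + 1) * 2 ^ N) *
          (c * (2 ^ N * nrm top (i + 1) fun τ => F τ + z τ)) :=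
          mul_le_mul_of_nonneg_left (h1.trans h2) (by (clear * - h0; positivity))
      _ = c * ((ε0 * nrm top (i + 1) fun τ => F τ + z τ) / ((D' + 1) * 2 ^ (d + 1))) := by
          (clear * - h0; field_simp)
      _ ≤ c * (nrm top (i + 1 + 1) (dd F) / ((D' + 1) * 2 ^ (d + 1))) := by
          refine mul_le_mul_of_nonneg_left ?_ hc0
          exact div_le_div_of_nonneg_right he (by (clear * -; positivity))
  · intro f hf hfn
    obtain ⟨F, hF⟩ := ext f
    have hcard : (Fintype.card (Face (skelX top d) d) : ℝ) ≤ 2 ^ N * top.card := by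
      have h1 := card_filter_face top d ∅
      have h2 : ((univ : Finset (Face (skelX top d) d)).filter fun t => ∅ ⊆ t.1) = univ := by
        ext t
        simp
      rw [h2, card_univ] at h1
      have h3 := card_Tof_le top d hN (up top ∅)
      rw [← h1] at h3
      have h4 : W top (up top ∅) = top.card := by
        have h5 : up top (∅ : Finset (Vx top)) = ∅ := map_empty _
        rw [h5]
        simp [W]
      rw [h4] at h3
      exact_mod_cast h3
    have hbig := hx2 F (by
      intro ρ hρ hW
      obtain ⟨t, rfl⟩ := exists_up top hW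
      rw [card_up] at hρ
      have htX : t ∈ skelX top d := ⟨card_pos.1 (by omega), by omega, hW⟩
      have := hf ⟨t, htX, hρ⟩
      rwa [hcob f F hF] at this) (by
      rintro ⟨e, he⟩
      apply hfn
      have hfe : ∀ s : Face (skelX top d) i, f s = dd e (up top s.1) := fun s => by
        rw [← hF s]
        exact he _ (by rw [card_up]; exact s.2.2) s.2.1.2.2
      cases i with
      | zero =>
        refine ⟨e ∅, fun s => ?_⟩
        rw [hfe]
        obtain ⟨v, hv⟩ := card_eq_one.1 (s.2.2 : s.1.card = 0 + 1)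
        have : up top s.1 = {v.1} := by rw [hv]; simp [up]
        simp only [this]
        simp [dd]
      | succ j =>
        exact ⟨fun r => e (up top r.1), funext fun t => by rw [hfe]; exact (dd_up top d e t).symm⟩)
    have h3 := le_cnorm top d hN hdN hD (i := i) hi.le f F hF
    refine le_trans ?_ h3
    have htc : (0 : ℝ) < top.card := by exact_mod_cast card_pos.2 hne
    have hcpos : (0 : ℝ) < Fintype.card (Face (skelX top d) d) := by
      obtain ⟨C, hC⟩ := hne
      obtain ⟨t, htC, ht⟩ := exists_subset_card_eq (s := C) (n := d + 1) (by rw [hN C hC]; omega)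
      have hW : 0 < W top t := W_pos_iff.2 ⟨C, hC, htC⟩
      obtain ⟨t', rfl⟩ := exists_up top hW
      rw [card_up] at ht
      have : Nonempty (Face (skelX top d) d) :=
        ⟨⟨t', ⟨card_pos.1 (by omega), by omega, hW⟩, ht⟩⟩
      exact_mod_cast Fintype.card_pos
    calc ε0 / ((D' + 1) * 2 ^ (d + 1) * 2 ^ N)
        = (2 ^ N * (top.card : ℝ))⁻¹ * (ε0 * top.card / ((D' + 1) * 2 ^ (d + 1))) := by
          (clear * - h0 htc; field_simp)
      _ ≤ (Fintype.card (Face (skelX top d) d) : ℝ)⁻¹ *
          (nrm top (i + 1) F / ((D' + 1) * 2 ^ (d + 1))) := by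
          refine mul_le_mul ?_ ?_ (by (clear * - h0 htc; positivity)) (by (clear * -; positivity))
          · exact inv_anti₀ hcpos hcard
          · exact div_le_div_of_nonneg_right hbig (by (clear * -; positivity))

end Vale.Agent.P067
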