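import Vale.Agent.P067.FinalDefs

/-!
# P067, stronger form: definitions

Skeleta and links of a finite simplicial complex, the spectral gap of its weighted `1`-skeleton,
and homogeneity.
-/

set_option autoImplicit false

open Finset

namespace Vale.Agent.P067

attribute [local instance] Classical.propDecidable

variable {V : Type} [Fintype V]

/-- The `d`-skeleton of `X`: its faces with at most `d + 1` vertices. -/
def skeleton (X : AbstractSimplicialComplex V) (d : ℕ) : AbstractSimplicialComplex V where
  faces := {s | s ∈ X ∧ s.card ≤ d + 1}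
  isRelLowerSet_faces := by
    rintro s ⟨h1, h2⟩
    exact ⟨(X.isRelLowerSet_faces h1).1, fun t hts ht => ⟨(X.isRelLowerSet_faces h1).2 hts ht,
      (card_le_card hts).trans h2⟩⟩
  singleton_mem v := ⟨X.singleton_mem v, by simp⟩

/-- The vertices of the link of `σ`: the `v` outside `σ` such that `σ ∪ {v}` is a face. -/
abbrev LinkV (X : AbstractSimplicialComplex V) (σ : Finset V) : Type :=
  {v : V // v ∉ σ ∧ insert v σ ∈ X}

/-- The link of `σ`: the nonempty sets `s` of vertices outside `σ` such that `σ ∪ s` is a face. -/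
def link (X : AbstractSimplicialComplex V) (σ : Finset V) :
    AbstractSimplicialComplex (LinkV X σ) where
  faces := {s | s.Nonempty ∧ σ ∪ s.map (Function.Embedding.subtype _) ∈ X}
  isRelLowerSet_faces := by
    rintro s ⟨h1, h2⟩
    refine ⟨h1, fun t hts ht => ⟨ht, ?_⟩⟩
    exact (X.isRelLowerSet_faces h2).2 (union_subset_union_right (map_subset_map.2 hts))
      ((ht.map).mono subset_union_right)
  singleton_mem v := by
    refine ⟨singleton_nonempty v, ?_⟩
    have : σ ∪ ({v} : Finset (LinkV X σ)).map (Function.Embedding.subtype _) = insert v.1 σ := by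
      rw [map_singleton, union_comm]
      rfl
    rw [this]
    exact v.2.2

/-- The cocycles `Z^i`, the kernel of `δ_i`. -/
def cocs (X : AbstractSimplicialComplex V) (i : ℕ) : Set (Face X i → ZMod 2) :=
  {f | ∀ t, cobd X i f t = 0}

/-- The `d`-dimensional complex `X` is an `ε`-cosystolic expander. -/
def IsCosystolicExpander (X : AbstractSimplicialComplex V) (d : ℕ) (ε : ℝ) : Prop :=
  ∀ i < d, (∀ f : Face X i → ZMod 2, ε * cdist X d f (cocs X i) ≤ cnorm X d (cobd X i f)) ∧
    ∀ f ∈ cocs X i, f ∉ cobs X i → ε ≤ cnorm X d f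

/-- The `d`-dimensional complex `X` is a `lam`-spectral expander: every eigenvalue, except the
eigenvalue `1` of the constants, of the random walk on the `1`-skeleton of `X` (a vertex `u` moves
to `v` with probability `w_1(uv) / (2 w_0(u))`) is at most `lam`. -/
def IsSpectralExpander (X : AbstractSimplicialComplex V) (d : ℕ) (lam : ℝ) : Prop :=
  ∀ g : V → ℝ, ∑ s : Face X 0, wt X d s * ∏ v ∈ s.1, g v = 0 →
    ∑ s : Face X 1, wt X d s * ∏ v ∈ s.1, g v ≤
      lam * ∑ s : Face X 0, wt X d s * ∏ v ∈ s.1, g v ^ 2

/-- The `d`-dimensional complex `X` is homogeneous: its vertices have a colouring with `d + 1`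
colours in which every face is rainbow, and the colour-preserving automorphisms of `X` act
transitively on its `d`-faces. -/
def IsHomogeneous (X : AbstractSimplicialComplex V) (d : ℕ) : Prop :=
  ∃ col : V → Fin (d + 1), (∀ s ∈ X, Set.InjOn col s) ∧
    ∀ s ∈ X, ∀ t ∈ X, s.card = d + 1 → t.card = d + 1 → ∃ e : Equiv.Perm V,
      (∀ v, col (e v) = col v) ∧ (∀ u : Finset V, u.map e.toEmbedding ∈ X ↔ u ∈ X) ∧
        s.map e.toEmbedding = t

end Vale.Agent.P067
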