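import Vale.Agent.P067.H301.Cosys

/-!
# P067, stronger form: the links of the skeleta
-/

set_option autoImplicit false

open Finset

namespace Vale.Agent.P067

attribute [local instance] Classical.propDecidable

attribute [-instance] Subtype.instDecidableEq

attribute [-instance] Submodule.decidableEq

/-! ### Transport along an isomorphism -/

section Transport

variable {V V' : Type} [Fintype V] [Fintype V'] {X : AbstractSimplicialComplex V}
  {X' : AbstractSimplicialComplex V'} (e : V ≃ V')
  (h : ∀ s : Finset V, s.map e.toEmbedding ∈ X' ↔ s ∈ X)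

/-- The induced bijection of the faces. -/
def faceEquiv (i : ℕ) : Face X i ≃ Face X' i :=
  Equiv.subtypeEquiv e.finsetCongr fun s => by
    rw [Equiv.finsetCongr_apply, card_map]
    exact and_congr_left fun _ => (h s).symm

omit [Fintype V] [Fintype V'] in
theorem faceEquiv_val {i : ℕ} (s : Face X i) : (faceEquiv e h i s).1 = s.1.map e.toEmbedding := rfl

omit [Fintype V] [Fintype V'] in
theorem faceEquiv_subset {i j : ℕ} (s : Face X i) (t : Face X j) :
    (faceEquiv e h i s).1 ⊆ (faceEquiv e h j t).1 ↔ s.1 ⊆ t.1 := by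
  rw [faceEquiv_val, faceEquiv_val, map_subset_map]

theorem wt_faceEquiv (d : ℕ) {i : ℕ} (s : Face X i) : wt X' d (faceEquiv e h i s) = wt X d s := by
  have h1 : ((univ : Finset (Face X' d)).filter fun t => (faceEquiv e h i s).1 ⊆ t.1).card =
      ((univ : Finset (Face X d)).filter fun t => s.1 ⊆ t.1).card := by
    symm
    refine card_bij (fun t _ => faceEquiv e h d t) ?_ ?_ ?_
    · intro t ht
      rw [mem_filter] at ht ⊢
      exact ⟨mem_univ _, (faceEquiv_subset e h s t).2 ht.2⟩
    · intro t _ t' _ heq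
      exact (faceEquiv e h d).injective heq
    · intro t ht
      rw [mem_filter] at ht
      refine ⟨(faceEquiv e h d).symm t, ?_, Equiv.apply_symm_apply _ _⟩
      rw [mem_filter]
      refine ⟨mem_univ _, (faceEquiv_subset e h s _).1 ?_⟩
      rw [Equiv.apply_symm_apply]
      exact ht.2
  rw [wt, wt, h1, Fintype.card_congr (faceEquiv e h d)]

theorem cnorm_faceEquiv (d : ℕ) {i : ℕ} (f : Face X' i → ZMod 2) :
    cnorm X' d f = cnorm X d (fun s => f (faceEquiv e h i s)) := by
  symm
  unfold cnorm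
  refine sum_bij (fun s _ => faceEquiv e h i s) ?_ ?_ ?_ ?_
  · intro s hs
    rw [mem_filter] at hs ⊢
    exact ⟨mem_univ _, hs.2⟩
  · intro s _ s' _ heq
    exact (faceEquiv e h i).injective heq
  · intro s hs
    rw [mem_filter] at hs
    refine ⟨(faceEquiv e h i).symm s, ?_, Equiv.apply_symm_apply _ _⟩
    rw [mem_filter]
    refine ⟨mem_univ _, ?_⟩
    simp only [Equiv.apply_symm_apply]
    exact hs.2
  · intro s _
    exact (wt_faceEquiv e h d s).symm

theorem cobd_faceEquiv {i : ℕ} (f : Face X' i → ZMod 2) (t : Face X (i + 1)) :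
    cobd X' i f (faceEquiv e h (i + 1) t) = cobd X i (fun s => f (faceEquiv e h i s)) t := by
  symm
  unfold cobd
  refine sum_bij (fun s _ => faceEquiv e h i s) ?_ ?_ ?_ ?_
  · intro s hs
    rw [mem_filter] at hs ⊢
    exact ⟨mem_univ _, (faceEquiv_subset e h s t).2 hs.2⟩
  · intro s _ s' _ heq
    exact (faceEquiv e h i).injective heq
  · intro s hs
    rw [mem_filter] at hs
    refine ⟨(faceEquiv e h i).symm s, ?_, Equiv.apply_symm_apply _ _⟩
    rw [mem_filter]
    refine ⟨mem_univ _, (faceEquiv_subset e h _ t).1 ?_⟩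
    rw [Equiv.apply_symm_apply]
    exact hs.2
  · intro s _
    rfl

theorem cobs_faceEquiv {i : ℕ} {a : Face X i → ZMod 2} (ha : a ∈ cobs X i) :
    (fun s => a ((faceEquiv e h i).symm s)) ∈ cobs X' i := by
  cases i with
  | zero =>
    obtain ⟨c, hc⟩ := ha
    exact ⟨c, fun s => hc _⟩
  | succ j =>
    obtain ⟨b, rfl⟩ := ha
    refine ⟨fun s => b ((faceEquiv e h j).symm s), funext fun t => ?_⟩
    have h1 := cobd_faceEquiv e h (fun s => b ((faceEquiv e h j).symm s))
      ((faceEquiv e h (j + 1)).symm t)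
    rw [Equiv.apply_symm_apply] at h1
    rw [h1]
    congr 1
    funext s
    rw [Equiv.symm_apply_apply]

include h in
/-- Coboundary expansion is invariant under isomorphism. -/
theorem IsCoboundaryExpander.transport {d : ℕ} {ε : ℝ} (hε : 0 ≤ ε)
    (hX : IsCoboundaryExpander X d ε) : IsCoboundaryExpander X' d ε := by
  intro i hi f
  have h1 := hX i hi fun s => f (faceEquiv e h i s)
  have h2 : cnorm X' d (cobd X' i f) = cnorm X d (cobd X i fun s => f (faceEquiv e h i s)) := by
    rw [cnorm_faceEquiv e h]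
    congr 1
    funext t
    exact cobd_faceEquiv e h f t
  rw [h2]
  refine (mul_le_mul_of_nonneg_left ?_ hε).trans h1
  have hne : (cobs X i).Nonempty := by
    cases i with
    | zero => exact ⟨fun _ => 0, 0, fun _ => rfl⟩
    | succ j => exact ⟨_, 0, rfl⟩
  refine le_csInf (hne.image _) ?_
  rintro _ ⟨a, ha, rfl⟩
  refine (cdist_le X' d f (cobs_faceEquiv e h ha)).trans (le_of_eq ?_)
  rw [cnorm_faceEquiv e h]
  simp only
  congr 1
  funext s
  rw [Pi.sub_apply, Pi.sub_apply, Equiv.symm_apply_apply]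

end Transport

/-! ### The top simplices of the links -/

section TopL

variable {α : Type} [Fintype α] (top : Finset (Finset α)) (σ : Finset α)

/-- The top simplices of the link of `σ`. -/
noncomputable def topL : Finset (Finset α) := (top.filter fun C => σ ⊆ C).image fun C => C \ σ

omit [Fintype α] in
theorem card_topL {N : ℕ} (hN : ∀ C ∈ top, C.card = N) : ∀ C ∈ topL top σ, C.card = N - σ.card := by
  intro C hC
  obtain ⟨C', hC', rfl⟩ := mem_image.1 hC
  rw [mem_filter] at hC'
  rw [card_sdiff_of_subset hC'.2, hN C' hC'.1]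

omit [Fintype α] in
theorem W_topL {τ : Finset α} (hd : Disjoint τ σ) : W (topL top σ) τ = W top (σ ∪ τ) := by
  symm
  unfold W
  refine card_bij (fun C _ => C \ σ) ?_ ?_ ?_
  · intro C hC
    rw [mem_filter] at hC ⊢
    refine ⟨mem_image.2 ⟨C, ?_, rfl⟩, ?_⟩
    · rw [mem_filter]
      exact ⟨hC.1, subset_union_left.trans hC.2⟩
    · intro a ha
      rw [mem_sdiff]
      exact ⟨hC.2 (mem_union_right _ ha), disjoint_left.1 hd ha⟩
  · intro C hC C' hC' heq
    rw [mem_filter] at hC hC'
    have h1 : σ ∪ C \ σ = C := union_sdiff_of_subset (subset_union_left.trans hC.2)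
    have h2 : σ ∪ C' \ σ = C' := union_sdiff_of_subset (subset_union_left.trans hC'.2)
    rw [← h1, ← h2]
    exact congrArg (σ ∪ ·) heq
  · intro C hC
    rw [mem_filter] at hC
    obtain ⟨C', hC', rfl⟩ := mem_image.1 hC.1
    rw [mem_filter] at hC'
    refine ⟨C', ?_, rfl⟩
    rw [mem_filter]
    exact ⟨hC'.1, union_subset hC'.2 (hC.2.trans sdiff_subset)⟩

omit [Fintype α] in
theorem disjoint_of_W_topL {τ : Finset α} (h : 0 < W (topL top σ) τ) : Disjoint τ σ := by
  obtain ⟨C, hC, hτC⟩ := W_pos_iff.1 h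
  obtain ⟨C', _, rfl⟩ := mem_image.1 hC
  exact (disjoint_of_subset_left hτC sdiff_disjoint)

theorem nrm_topL (q : ℕ) (g : Finset α → ZMod 2) :
    nrm (topL top σ) q g = nrmL top σ q g := by
  unfold nrm nrmL
  have h1 : (univ : Finset (Finset α)).filter (fun τ => τ.card = q ∧ Disjoint τ σ ∧ g τ ≠ 0) ⊆
      (univ : Finset (Finset α)).filter (fun τ => τ.card = q ∧ g τ ≠ 0) := by
    intro τ hτ
    rw [mem_filter] at hτ ⊢
    exact ⟨hτ.1, hτ.2.1, hτ.2.2.2⟩
  rw [← sum_subset h1 fun τ hτ hτ' => ?_]
  · refine sum_congr rfl fun τ hτ => ?_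
    rw [mem_filter] at hτ
    exact W_topL top σ hτ.2.2.1
  · by_contra hne
    rw [mem_filter] at hτ hτ'
    exact hτ' ⟨hτ.1, hτ.2.1, disjoint_of_W_topL top σ (Nat.pos_of_ne_zero hne), hτ.2.2⟩

end TopL

/-- The links of the `d`-skeleton are coboundary expanders. -/
theorem link_skelX_expander {α : Type} [Fintype α] (top : Finset (Finset α)) (d : ℕ) {N D' : ℕ}
    (hN : ∀ C ∈ top, C.card = N) (hdN : d + 2 ≤ N)
    (hD : ∀ v : α, W top {v} ≤ D') {β : ℝ} (hβ : 0 < β) (hL : LinkExp top N β)
    (σ : Finset (Vx top)) (hσ : σ ∈ skelX top d) (hσd : σ.card + 1 ≤ d) :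
    IsCoboundaryExpander (link (skelX top d) σ) (d - σ.card)
      (β / ((D' + 1) * 2 ^ (d + 1) * 2 ^ N)) := by
  have hWσ : 0 < W top (up top σ) := hσ.2.2
  have hcσ : (up top σ).card = σ.card := card_up top σ
  have hN' := card_topL top (up top σ) hN
  rw [hcσ] at hN'
  have hD1 : ∀ v : α, W (topL top (up top σ)) {v} ≤ D' := by
    intro v
    rcases Nat.eq_zero_or_pos (W (topL top (up top σ)) {v}) with h0 | h0
    · rw [h0]; exact Nat.zero_le _
    · rw [W_topL _ _ (disjoint_of_W_topL _ _ h0)]
      exact (W_anti top subset_union_right).trans (hD v)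
  have h1 := skelX_expander (topL top (up top σ)) (d - σ.card) hN' (by omega) hD1 hβ (by
    intro s hs hsd f
    obtain ⟨u, hu⟩ := hL (up top σ) (by
      rw [← card_pos, hcσ]
      exact card_pos.2 hσ.1) hWσ s hs (by rw [hcσ]; omega) f
    refine ⟨u, ?_⟩
    rw [nrm_topL, nrm_topL]
    exact hu)
  have h2 : IsCoboundaryExpander (skelX (topL top (up top σ)) (d - σ.card)) (d - σ.card)
      (β / ((D' + 1) * 2 ^ (d + 1) * 2 ^ N)) := by
    refine h1.mono ?_
    refine div_le_div_of_nonneg_left hβ.le (by positivity) ?_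
    refine mul_le_mul (mul_le_mul_of_nonneg_left ?_ (by positivity)) ?_ (by positivity)
      (by positivity)
    · exact pow_le_pow_right₀ (by norm_num) (by omega)
    · exact pow_le_pow_right₀ (by norm_num) (by omega)
  -- the isomorphism
  have hv : ∀ a : α, (0 < W (topL top (up top σ)) {a}) ↔
      a ∉ up top σ ∧ 0 < W top (insert a (up top σ)) := by
    intro a
    constructor
    · intro h
      have hdis := disjoint_of_W_topL _ _ h
      rw [W_topL _ _ hdis, union_comm, ← insert_eq] at h
      exact ⟨disjoint_singleton_left.1 hdis, h⟩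
    · rintro ⟨h3, h4⟩
      rw [W_topL _ _ (disjoint_singleton_left.2 h3), union_comm, ← insert_eq]
      exact h4
  have hup_insert : ∀ v : Vx top, up top (insert v σ) = insert v.1 (up top σ) := by
    intro v
    rw [up, map_insert]
    rfl
  have hmem_up : ∀ v : Vx top, v.1 ∈ up top σ ↔ v ∈ σ := by
    intro v
    exact mem_map' (Function.Embedding.subtype _)
  let E : Vx (topL top (up top σ)) ≃ LinkV (skelX top d) σ :=
    { toFun := fun a => ⟨⟨a.1, lt_of_lt_of_le ((hv a.1).1 a.2).2 (W_anti top (by simp))⟩, by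
        refine ⟨fun hmem => ((hv a.1).1 a.2).1 ((hmem_up _).2 hmem), insert_nonempty _ _, ?_, ?_⟩
        · exact (card_insert_le _ _).trans (by omega)
        · rw [hup_insert]
          exact ((hv a.1).1 a.2).2⟩
      invFun := fun v => ⟨v.1.1, (hv _).2 ⟨fun hmem => v.2.1 ((hmem_up _).1 hmem), by
        rw [← hup_insert]
        exact v.2.2.2.2⟩⟩
      left_inv := fun a => rfl
      right_inv := fun v => rfl }
  refine h2.transport E ?_ (by positivity)
  intro s
  have hE : up top ((s.map E.toEmbedding).map (Function.Embedding.subtype _)) =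
      up (topL top (up top σ)) s := by
    ext a
    constructor
    · intro ha
      obtain ⟨b, hb, rfl⟩ := mem_map.1 ha
      obtain ⟨c, hc, rfl⟩ := mem_map.1 hb
      obtain ⟨x, hx, rfl⟩ := mem_map.1 hc
      exact mem_map.2 ⟨x, hx, rfl⟩
    · intro ha
      obtain ⟨x, hx, rfl⟩ := mem_map.1 ha
      exact mem_map.2 ⟨(E x).1, mem_map.2 ⟨E x, mem_map.2 ⟨x, hx, rfl⟩, rfl⟩, rfl⟩
  have hdis : Disjoint (up (topL top (up top σ)) s) (up top σ) := by
    rw [disjoint_left]
    intro a ha
    obtain ⟨x, _, rfl⟩ := mem_map.1 ha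
    exact ((hv x.1).1 x.2).1
  have hup_union : up top (σ ∪ (s.map E.toEmbedding).map (Function.Embedding.subtype _)) =
      up top σ ∪ up (topL top (up top σ)) s := by
    rw [← hE, up, map_union]
    rfl
  have hcard : (σ ∪ (s.map E.toEmbedding).map (Function.Embedding.subtype _)).card =
      σ.card + s.card := by
    rw [← card_up top, hup_union, card_union_of_disjoint hdis.symm, card_up, card_up]
  constructor
  · rintro ⟨h3, h4, h5, h6⟩
    rw [hcard] at h5
    rw [hup_union, ← W_topL _ _ hdis] at h6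
    exact ⟨map_nonempty.1 h3, by omega, h6⟩
  · rintro ⟨h3, h4, h5⟩
    refine ⟨map_nonempty.2 h3, hσ.1.mono subset_union_left, ?_, ?_⟩
    · rw [hcard]; omega
    · rw [hup_union, ← W_topL _ _ hdis]
      exact h5

end Vale.Agent.P067
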