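import Vale.Agent.P067.Bdl.B1

/-!
# P067, stronger form: the numbers of vertices grow at most by a constant factor
-/

set_option autoImplicit false

open Polynomial

namespace Vale.Agent.P067

attribute [local instance] Classical.propDecidable

attribute [-instance] Subtype.instDecidableEq

attribute [-instance] Submodule.decidableEq

open scoped Pointwise

section red

variable (p m : ℕ) [Fact p.Prime]

/-- The reduction of `F[t]/(t^(m+1))` modulo `t^m`. -/
noncomputable def redR : Rg p (m + 1) →+* Rg p m :=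
  AdjoinRoot.lift (algebraMap (ZMod p) (Rg p m)) (tt p m) (by
    rw [eval₂_pow, eval₂_X, pow_succ, tt_pow, zero_mul])

variable {p m}

theorem co_redR {c : ℕ} (hc : c < m) (r : Rg p (m + 1)) :
    co p m c (redR p m r) = co p (m + 1) c r := by
  obtain ⟨f, rfl⟩ := AdjoinRoot.mk_surjective r
  have h1 : redR p m (AdjoinRoot.mk _ f) = AdjoinRoot.mk _ f := by
    rw [redR, AdjoinRoot.lift_mk]
    exact AdjoinRoot.aeval_eq (f := (X : (ZMod p)[X]) ^ m) f
  rw [h1, co_mk c f hc, co_mk c f (by omega)]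

end red

variable {p : ℕ} [Fact p.Prime] {ι : Type} [Fintype ι] [DecidableEq ι]

instance finite_SLR (m : ℕ) : Finite (Matrix.SpecialLinearGroup ι (Rg p m)) :=
  inferInstanceAs (Finite {A : Matrix ι ι (Rg p m) // A.det = 1})

theorem card_SL_succ_le (m : ℕ) :
    Nat.card (Matrix.SpecialLinearGroup ι (Rg p (m + 1))) ≤
      p ^ (Fintype.card ι * Fintype.card ι) * Nat.card (Matrix.SpecialLinearGroup ι (Rg p m)) := by
  let φ : Matrix.SpecialLinearGroup ι (Rg p (m + 1)) →
      (ι × ι → ZMod p) × Matrix.SpecialLinearGroup ι (Rg p m) := fun A =>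
    (fun q => co p (m + 1) m (A.1 q.1 q.2), Matrix.SpecialLinearGroup.map (redR p m) A)
  have hφ : Function.Injective φ := by
    intro A B h
    apply Subtype.ext
    ext i j
    apply Rg_ext
    intro c hc
    rcases Nat.lt_succ_iff_lt_or_eq.1 hc with hc' | rfl
    · have h1 := congrArg (fun q => (q.2 : Matrix ι ι (Rg p m)) i j) h
      have h2 : redR p m (A.1 i j) = redR p m (B.1 i j) := h1
      rw [← co_redR hc', ← co_redR hc', h2]
    · exact congrFun (congrArg Prod.fst h) (i, j)
  refine (Nat.card_le_card_of_injective φ hφ).trans (le_of_eq ?_)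
  rw [Nat.card_prod]
  congr 1
  rw [Nat.card_eq_fintype_card, Fintype.card_fun, ZMod.card, Fintype.card_prod]

instance finite_GG' (m : ℕ) : Finite (GG ι p m) := finite_GGL

omit [Fact p.Prime] in
theorem card_GG (m : ℕ) :
    Nat.card (GG ι p m) = Nat.card (Matrix.SpecialLinearGroup ι (Rg p m)) :=
  (Nat.card_congr Matrix.SpecialLinearGroup.toLin'_equiv.toEquiv).symm

/-- The number of vertices. -/
noncomputable def nv (ι : Type) [Fintype ι] [DecidableEq ι] (p m : ℕ) [Fact p.Prime] : ℕ :=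
  Nat.card {L : Sb ι p m // {L} ∈ XX ι p m}

/-- Every vertex is `g • (W0 + t S)`. -/
theorem nv_le (m : ℕ) :
    nv ι p m ≤ Nat.card (Submodule (ZMod p) (ι → ZMod p)) * Nat.card (GG ι p m) := by
  have : Finite (Submodule (ZMod p) (ι → ZMod p)) := inferInstance
  rw [← Nat.card_prod]
  have key : ∀ L : {L : Sb ι p m // {L} ∈ XX ι p m},
      ∃ q : Submodule (ZMod p) (ι → ZMod p) × GG ι p m,
        q.2 • vtx (W0 ι p m) (q.1.map (cst ι p m)) = L.1 := by
    rintro ⟨L, hL⟩
    obtain ⟨Wf, S, ⟨g, rfl⟩, hS, rfl⟩ := exists_vtx' hL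
    refine ⟨(Submodule.comap (cst ι p m) (g⁻¹ • S), g), ?_⟩
    have h1 : (Submodule.comap (cst ι p m) (g⁻¹ • S)).map (cst ι p m) = g⁻¹ • S := by
      rw [Submodule.map_comap_eq, inf_eq_right]
      intro x hx
      have h2 : g • x ∈ S := by
        have := Submodule.smul_mem_pointwise_smul x g _ hx
        rwa [smul_inv_smul] at this
      obtain ⟨y, hy, hxy⟩ := (Submodule.mem_smul_pointwise_iff_exists _ _ _).1 (hS.le h2)
      rw [← MulAction.injective g hxy]
      exact hy
    change g • vtx (W0 ι p m) ((Submodule.comap (cst ι p m) (g⁻¹ • S)).map (cst ι p m)) = _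
    rw [h1, smul_vtx, smul_inv_smul]
  choose q hq using key
  refine Nat.card_le_card_of_injective q ?_
  intro L L' h
  apply Subtype.ext
  rw [← hq L, ← hq L', h]

/-- The stabilizer of a form is bounded. -/
theorem card_GG_le {m : ℕ} (hm : 0 < m) (hι : 1 ≤ Fintype.card ι) :
    Nat.card (GG ι p m) ≤ p ^ (Fintype.card ι * Fintype.card ι) * nv ι p m := by
  have key : ∀ g : GG ι p m, {g • W0 ι p m} ∈ XX ι p m := fun g =>
    singleton_form_mem_XX hm hι (isForm_W0.smul g)
  -- representatives of the orbit of `W0`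
  let s : {L : Sb ι p m // {L} ∈ XX ι p m} → GG ι p m := fun L =>
    if h : ∃ g : GG ι p m, g • W0 ι p m = L.1 then h.choose else 1
  have hs : ∀ g : GG ι p m, s ⟨g • W0 ι p m, key g⟩ • W0 ι p m = g • W0 ι p m := by
    intro g
    have h : ∃ g' : GG ι p m, g' • W0 ι p m = g • W0 ι p m := ⟨g, rfl⟩
    change (if h : ∃ g' : GG ι p m, g' • W0 ι p m = g • W0 ι p m then h.choose else 1) •
      W0 ι p m = _
    rw [dif_pos h]
    exact h.choose_spec
  have hmem : ∀ (g : GG ι p m) (i : ι), ∃ v : ι → ZMod p,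
      cst ι p m v = (s ⟨g • W0 ι p m, key g⟩)⁻¹ • g • cst ι p m (Pi.single i 1) := by
    intro g i
    have h1 : g • cst ι p m (Pi.single i 1) ∈ s ⟨g • W0 ι p m, key g⟩ • W0 ι p m := by
      rw [hs]
      exact Submodule.smul_mem_pointwise_smul _ _ _ ⟨_, rfl⟩
    obtain ⟨y, ⟨v, rfl⟩, hy⟩ := (Submodule.mem_smul_pointwise_iff_exists _ _ _).1 h1
    exact ⟨v, by rw [← hy, inv_smul_smul]⟩
  choose v hv using hmem
  let φ : GG ι p m → (ι × ι → ZMod p) × {L : Sb ι p m // {L} ∈ XX ι p m} := fun g =>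
    (fun q => v g q.1 q.2, ⟨g • W0 ι p m, key g⟩)
  have hφ : Function.Injective φ := by
    intro g g' h
    have h1 : (⟨g • W0 ι p m, key g⟩ : {L : Sb ι p m // {L} ∈ XX ι p m}) =
        ⟨g' • W0 ι p m, key g'⟩ := congrArg Prod.snd h
    have h2 : ∀ i, v g i = v g' i := fun i => funext fun j =>
      congrFun (congrArg Prod.fst h) (i, j)
    have h3 : ∀ i, g • cst ι p m (Pi.single i 1) = g' • cst ι p m (Pi.single i 1) := by
      intro i
      have h4 := hv g i
      have h5 := hv g' i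
      rw [h1] at h4
      rw [h2, h5] at h4
      exact (MulAction.injective _ h4).symm
    have h6 : ∀ i, cst ι p m (Pi.single i 1) = Pi.single i (1 : Rg p m) := by
      intro i
      funext j
      rw [cst_apply]
      by_cases hij : j = i
      · subst hij
        simp
      · rw [Pi.single_eq_of_ne hij, Pi.single_eq_of_ne hij, map_zero]
    have h7 : (g : VV ι p m ≃ₗ[Rg p m] VV ι p m).toLinearMap =
        (g' : VV ι p m ≃ₗ[Rg p m] VV ι p m).toLinearMap := by
      apply (Pi.basisFun (Rg p m) ι).ext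
      intro i
      rw [Pi.basisFun_apply, ← h6]
      exact h3 i
    exact SpecialLinearGroup.ext _ _ fun x => LinearMap.congr_fun h7 x
  refine (Nat.card_le_card_of_injective φ hφ).trans (le_of_eq ?_)
  rw [Nat.card_prod]
  congr 1
  rw [Nat.card_eq_fintype_card, Fintype.card_fun, ZMod.card, Fintype.card_prod]

theorem nv_succ_le {m : ℕ} (hm : 0 < m) (hι : 1 ≤ Fintype.card ι) :
    nv ι p (m + 1) ≤ (Nat.card (Submodule (ZMod p) (ι → ZMod p)) *
      p ^ (Fintype.card ι * Fintype.card ι) * p ^ (Fintype.card ι * Fintype.card ι)) *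
      nv ι p m := by
  calc nv ι p (m + 1)
      ≤ Nat.card (Submodule (ZMod p) (ι → ZMod p)) * Nat.card (GG ι p (m + 1)) := nv_le (m + 1)
    _ ≤ Nat.card (Submodule (ZMod p) (ι → ZMod p)) *
        (p ^ (Fintype.card ι * Fintype.card ι) *
          (p ^ (Fintype.card ι * Fintype.card ι) * nv ι p m)) := by
        refine Nat.mul_le_mul_left _ ?_
        rw [card_GG]
        refine (card_SL_succ_le m).trans (Nat.mul_le_mul_left _ ?_)
        rw [← card_GG]
        exact card_GG_le hm hι
    _ = _ := by ring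

theorem le_nv (hι : 2 ≤ Fintype.card ι) (M : ℕ) : M ≤ nv ι p (M + 3) := by
  obtain ⟨i, j, hij⟩ := Fintype.exists_pair_of_one_lt_card (α := ι) (by omega)
  have h1 : Function.Injective (fun c : Fin M => (⟨gTr (m := M + 3) (p := p) i j hij (c + 1) •
      W0 ι p (M + 3), singleton_form_mem_XX (by omega) (by omega) (isForm_W0.smul _)⟩ :
        {L : Sb ι p (M + 3) // {L} ∈ XX ι p (M + 3)})) := by
    intro c d h
    have h2 := congrArg Subtype.val h
    have := gTr_form_injective i j hij (by omega) (by omega) h2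
    apply Fin.ext
    omega
  have h2 := Nat.card_le_card_of_injective _ h1
  rwa [Nat.card_eq_fintype_card, Fintype.card_fin] at h2

/-- All scales. -/
theorem all_scales (hι : 2 ≤ Fintype.card ι) : ∃ C : ℕ, ∀ M : ℕ, ∃ m, 3 ≤ m ∧
    M < nv ι p m ∧ nv ι p m ≤ C * (M + 1) := by
  set C1 : ℕ := Nat.card (Submodule (ZMod p) (ι → ZMod p)) *
      p ^ (Fintype.card ι * Fintype.card ι) * p ^ (Fintype.card ι * Fintype.card ι) with hC1
  refine ⟨nv ι p 3 + C1, fun M => ?_⟩
  have hex : ∃ k, M < nv ι p (k + 3) := ⟨M + 1, (Nat.lt_succ_self M).trans_le (le_nv hι (M + 1))⟩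
  refine ⟨Nat.find hex + 3, by omega, Nat.find_spec hex, ?_⟩
  rcases Nat.eq_zero_or_pos (Nat.find hex) with h0 | h0
  · rw [h0]
    calc nv ι p (0 + 3) = nv ι p 3 * 1 := by rw [mul_one]
      _ ≤ (nv ι p 3 + C1) * (M + 1) := Nat.mul_le_mul (Nat.le_add_right _ _) (by omega)
  · obtain ⟨k, hk⟩ : ∃ k, Nat.find hex = k + 1 := ⟨Nat.find hex - 1, by omega⟩
    have h1 : ¬ M < nv ι p (k + 3) := Nat.find_min hex (by omega)
    rw [hk]
    calc nv ι p (k + 1 + 3) = nv ι p (k + 3 + 1) := by rw [show k + 1 + 3 = k + 3 + 1 by omega]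
      _ ≤ C1 * nv ι p (k + 3) := nv_succ_le (by omega) (by omega)
      _ ≤ (nv ι p 3 + C1) * (M + 1) := Nat.mul_le_mul (Nat.le_add_left _ _) (by omega)

end Vale.Agent.P067
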