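import Vale.Agent.P067.H301.LinkSk
import Vale.Agent.P067.H301.Scale

/-!
# P067, stronger form: assembly
-/

set_option autoImplicit false

open Finset

open scoped Pointwise

namespace Vale.Agent.P067

attribute [local instance] Classical.propDecidable

attribute [-instance] Subtype.instDecidableEq

attribute [-instance] Submodule.decidableEq

/-- All the properties of the complexes, in terms of the weights of the top simplices. -/
theorem props_XX (N : ℕ) (hN : 2 ≤ N) : ∃ β : ℝ, 0 < β ∧ ∀ lam : ℝ, 0 < lam →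
    ∃ p : ℕ, ∃ _ : Fact p.Prime, ∃ (D' : ℕ) (ε0 : ℝ), 0 < ε0 ∧ ∀ m : ℕ, 3 ≤ m →
      ∀ [Fintype (Sb (Fin (N + 1)) p m)],
      (∀ C ∈ topX (Fin (N + 1)) p m, C.card = N + 1) ∧ (topX (Fin (N + 1)) p m).Nonempty ∧
      (∀ v, W (topX (Fin (N + 1)) p m) {v} ≤ D') ∧ LinkConn (topX (Fin (N + 1)) p m) ∅ ∧
      LinkExp (topX (Fin (N + 1)) p m) (N + 1) β ∧
      (∀ θ : Finset (Sb (Fin (N + 1)) p m), 0 < W (topX (Fin (N + 1)) p m) θ →
        θ.card + 2 ≤ N + 1 → SpecGap (topX (Fin (N + 1)) p m) (N + 1) θ lam) ∧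
      (∀ s : ℕ, 1 ≤ s → s + 1 ≤ N →
        (∀ f : Finset (Sb (Fin (N + 1)) p m) → ZMod 2, ∃ z : Finset (Sb (Fin (N + 1)) p m) → ZMod 2,
          (∀ ρ : Finset (Sb (Fin (N + 1)) p m), ρ.card = s + 1 →
            0 < W (topX (Fin (N + 1)) p m) ρ → dd z ρ = 0) ∧
          ε0 * (nrm (topX (Fin (N + 1)) p m) s (fun τ => f τ + z τ) : ℝ) ≤
            (nrm (topX (Fin (N + 1)) p m) (s + 1) (dd f) : ℝ)) ∧
        ∀ f : Finset (Sb (Fin (N + 1)) p m) → ZMod 2,
          (∀ ρ : Finset (Sb (Fin (N + 1)) p m), ρ.card = s + 1 →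
            0 < W (topX (Fin (N + 1)) p m) ρ → dd f ρ = 0) →
          (¬ ∃ e : Finset (Sb (Fin (N + 1)) p m) → ZMod 2,
            ∀ τ : Finset (Sb (Fin (N + 1)) p m), τ.card = s →
              0 < W (topX (Fin (N + 1)) p m) τ → f τ = dd e τ) →
          ε0 * (topX (Fin (N + 1)) p m).card ≤ (nrm (topX (Fin (N + 1)) p m) s f : ℝ)) ∧
      (∀ s : ℕ, 1 ≤ s → 2 * s ≤ N → ∀ f : Finset (Sb (Fin (N + 1)) p m) → ZMod 2,
        ∃ e : Finset (Sb (Fin (N + 1)) p m) → ZMod 2,
        ε0 * (nrm (topX (Fin (N + 1)) p m) s (fun τ => f τ + dd e τ) : ℝ) ≤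
          (nrm (topX (Fin (N + 1)) p m) (s + 1) (dd f) : ℝ)) := by
  obtain ⟨n, hn⟩ : ∃ n, n = N + 1 := ⟨_, rfl⟩
  rw [← hn]
  obtain ⟨p1, hvan⟩ := vanish n
  obtain ⟨β, p2, hβ, hLE⟩ := linkExp_topX n
  obtain ⟨lam1, hlam1, hC2⟩ := cosystolic_of_local n β hβ
  obtain ⟨lam0, hlam0, hE⟩ := edgeMix_of_base n lam1 hlam1
  obtain ⟨p3, hLC⟩ := linkConn_topX n
  refine ⟨β, hβ, fun lam hlam => ?_⟩
  have hpos : (0 : ℝ) < 1 + n * lam := by positivity
  have hlam2 : 0 < lam / (1 + n * lam) := by positivity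
  obtain ⟨p4, hp4⟩ := exists_nat_ge (1 / lam0 ^ 2)
  obtain ⟨p5, hp5⟩ := exists_nat_ge (1 / (lam / (1 + n * lam)) ^ 2)
  obtain ⟨p, hp, hprime⟩ := Nat.exists_infinite_primes (p1 + p2 + p3 + p4 + p5)
  have hfact : Fact p.Prime := ⟨hprime⟩
  obtain ⟨D', hD'⟩ := W_topX_le (Fin n) p
  obtain ⟨ε0, hε0, hexp⟩ := hC2 D'
  refine ⟨p, hfact, D', ε0, hε0, ?_⟩
  intro m hm _
  have hcardn : Fintype.card (Fin n) = n := Fintype.card_fin n
  have htop : ∀ C ∈ topX (Fin n) p m, C.card = n := fun C hC => by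
    rw [(mem_topX.1 hC).2, hcardn]
  have hne : (topX (Fin n) p m).Nonempty := by
    have h0 : (∅ : Finset (Sb (Fin n) p m)) ∈ XX (Fin n) p m :=
      ⟨W0 (Fin n) p m, isForm_W0, ∅, by simp, by simp, by simp⟩
    obtain ⟨C, hC, _⟩ := exists_topX hm h0
    exact ⟨C, hC⟩
  have hconn0 : LinkConn (topX (Fin n) p m) ∅ := by
    apply linkConn_of_acyc
    have h1 := hvan p m (Fin n) hcardn (by omega) hm 0 (by omega)
    have h2 : {τ : Finset (Sb (Fin n) p m) | Disjoint τ ∅ ∧ 0 < W (topX (Fin n) p m) (∅ ∪ τ)} =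
        XX (Fin n) p m := by
      ext τ
      rw [Set.mem_ofPred_eq, empty_union]
      exact ⟨fun h => (W_topX_pos_iff hm τ).1 h.2,
        fun h => ⟨disjoint_empty_right τ, (W_topX_pos_iff hm τ).2 h⟩⟩
    rw [h2]
    exact h1
  have hconn : ∀ θ : Finset (Sb (Fin n) p m), 0 < W (topX (Fin n) p m) θ → θ.card + 2 ≤ n →
      LinkConn (topX (Fin n) p m) θ := by
    intro θ hW hθ
    rcases θ.eq_empty_or_nonempty with h | h
    · rw [h]; exact hconn0
    · exact hLC p m (Fin n) hcardn (by omega) hm θ h hW hθ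
  have hbase' : ∀ (l : ℝ) (q : ℕ), 0 < l → 1 / l ^ 2 ≤ q → q ≤ p →
      ∀ θ : Finset (Sb (Fin n) p m), 0 < W (topX (Fin n) p m) θ → θ.card + 2 = n →
      SpecGap (topX (Fin n) p m) n θ l := by
    intro l q hl hq hqp θ hW hθ
    have h1 : 1 ≤ l ^ 2 * (p : ℝ) := by
      have h2 : (q : ℝ) ≤ p := by exact_mod_cast hqp
      have h3 : 1 / l ^ 2 ≤ (p : ℝ) := hq.trans h2
      rwa [div_le_iff₀' (by positivity)] at h3
    have h2 := specGap_base (ι := Fin n) hm (by rw [hcardn]; omega) hl h1 θ hW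
      (by rw [hcardn]; exact hθ)
    rwa [hcardn] at h2
  have hbase := hbase' lam0 p4 hlam0 hp4 (by omega)
  have hEM : EdgeMix (topX (Fin n) p m) n lam1 := hE _ htop hconn hbase
  have hL : LinkExp (topX (Fin n) p m) n β := hLE p m (Fin n) hcardn (by omega) hm
  have hcos := hexp _ (topX (Fin n) p m) htop (hD' m hm) hL hEM
  refine ⟨htop, hne, hD' m hm, hconn0, hL, ?_, fun s hs hsN => hcos s hs (by omega), ?_⟩
  · intro θ hW hθ
    have hlt : (n : ℝ) * (lam / (1 + n * lam)) < 1 := by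
      rw [mul_div_assoc', div_lt_one hpos]; linarith only []
    have h1 := SpecGapM.iterate htop (lam0 := lam / (1 + n * lam))
      (fun θ hW hθ => linkConnM_of_linkConn (hconn θ hW (by omega))) hlam2.le hlt
      (fun θ hW hθ => (specGapM_iff (topX (Fin n) p m) n θ _).2
        (hbase' _ p5 hlam2 hp5 (by omega) θ hW hθ)) θ hW hθ
    have heq : lam / (1 + n * lam) / (1 - n * (lam / (1 + n * lam))) = lam := by
      have h2 : 1 - n * (lam / (1 + n * lam)) = 1 / (1 + n * lam) := by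
        rw [eq_div_iff hpos.ne', sub_mul, mul_assoc, div_mul_cancel₀ _ hpos.ne']
        ring
      rw [h2, div_div_div_cancel_right₀ hpos.ne']
      simp
    rw [heq] at h1
    exact (specGapM_iff _ _ _ _).1 h1
  · intro s hs hsd f
    have hvs : Acyc (ZMod 2) (XX (Fin n) p m) s := by
      have := hvan p m (Fin n) hcardn (by omega) hm (s - 1) (by omega)
      rwa [Nat.sub_add_cancel hs] at this
    obtain ⟨z, hz, hzf⟩ := (hcos s hs (by omega)).1 f
    obtain ⟨e, he⟩ := cocycle_eq_coboundary (XX (Fin n) p m) s hvs z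
      (fun ρ hρ hc => hz ρ hc ((W_topX_pos_iff hm ρ).2 hρ))
    refine ⟨e, ?_⟩
    have h1 : nrm (topX (Fin n) p m) s (fun τ => f τ + dd e τ) =
        nrm (topX (Fin n) p m) s (fun τ => f τ + z τ) :=
      nrm_congr_faces _ s fun τ hτ hW => by
        rw [he τ ((W_topX_pos_iff hm τ).1 hW) hτ]
    rw [h1]
    exact hzf

/-- From the weights of the top simplices to the official weights. -/
theorem strong_of_weights (N D' : ℕ) (hN : 2 ≤ N) (β lam ε0 : ℝ) (hβ : 0 < β) (h0 : 0 < ε0) :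
    ∃ (D : ℕ) (ε : ℝ), 0 < ε ∧ ∀ (α : Type) [Fintype α] (top : Finset (Finset α))
      (G : Type) [Group G] [MulAction G α] (ty : α → ℕ),
      (∀ C ∈ top, C.card = N + 1) → top.Nonempty → (∀ v : α, W top {v} ≤ D') → LinkConn top ∅ →
      TypedTrans G top ty → (∀ v, 0 < W top {v} → N + 1 ≤ ty v ∧ ty v < N + 1 + (N + 1)) →
      LinkExp top (N + 1) β →
      (∀ θ : Finset α, 0 < W top θ → θ.card + 2 ≤ N + 1 → SpecGap top (N + 1) θ lam) →
      (∀ s : ℕ, 1 ≤ s → s + 1 ≤ N →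
        (∀ f : Finset α → ZMod 2, ∃ z : Finset α → ZMod 2,
          (∀ ρ : Finset α, ρ.card = s + 1 → 0 < W top ρ → dd z ρ = 0) ∧
          ε0 * (nrm top s (fun τ => f τ + z τ) : ℝ) ≤ (nrm top (s + 1) (dd f) : ℝ)) ∧
        ∀ f : Finset α → ZMod 2,
          (∀ ρ : Finset α, ρ.card = s + 1 → 0 < W top ρ → dd f ρ = 0) →
          (¬ ∃ e : Finset α → ZMod 2, ∀ τ : Finset α, τ.card = s → 0 < W top τ →
            f τ = dd e τ) →
          ε0 * top.card ≤ (nrm top s f : ℝ)) →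
      (∀ s : ℕ, 1 ≤ s → 2 * s ≤ N → ∀ f : Finset α → ZMod 2, ∃ e : Finset α → ZMod 2,
        ε0 * (nrm top s (fun τ => f τ + dd e τ) : ℝ) ≤ (nrm top (s + 1) (dd f) : ℝ)) →
      ∃ (V : Type) (_ : Fintype V) (Y : AbstractSimplicialComplex V),
        Fintype.card V = ((univ : Finset α).filter (fun v => 0 < W top {v})).card ∧
        IsPure Y N ∧ degree Y N ≤ D ∧ IsHomogeneous Y N ∧ IsSpectralExpander Y N lam ∧
        (∀ σ ∈ Y, σ.card < N → IsSpectralExpander (link Y σ) (N - σ.card) lam ∧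
          IsCoboundaryExpander (link Y σ) (N - σ.card) (β / 2 ^ (N + 1))) ∧
        IsCosystolicExpander (skeleton Y (N - 1)) (N - 1) ε ∧
        ∀ d : ℕ, 1 ≤ d → 2 * d ≤ N →
          IsPure (skeleton Y d) d ∧ (skel (skeleton Y d)).Connected ∧
          degree (skeleton Y d) d ≤ D ∧ IsCoboundaryExpander (skeleton Y d) d ε ∧
          ∀ σ ∈ skeleton Y d, σ.card < d →
            IsCoboundaryExpander (link (skeleton Y d) σ) (d - σ.card) ε := by
  set K : ℝ := (D' + 1) * 2 ^ (N + 1) * 2 ^ (N + 1) with hK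
  have hKpos : 0 < K := by positivity
  refine ⟨2 ^ (N + 1) * D', min ε0 β / K, by positivity, ?_⟩
  intro α _ top G _ _ ty htop hne hD hconn hT hty hL hS hcos hexp
  have hM := mod_skelX htop
  have hcW0 : 0 < W top ∅ := by
    obtain ⟨C, hC⟩ := hne
    exact W_pos_iff.2 ⟨C, hC, empty_subset _⟩
  have hc : ∀ d : ℕ, d ≤ N → ∀ x : ℝ, 0 < x → min ε0 β ≤ x →
      min ε0 β / K ≤ x / ((D' + 1) * 2 ^ (d + 1) * 2 ^ (N + 1)) := by
    intro d hd x hx hle
    refine (div_le_div_of_nonneg_right hle hKpos.le).trans ?_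
    refine div_le_div_of_nonneg_left hx.le (by positivity) ?_
    refine mul_le_mul_of_nonneg_right (mul_le_mul_of_nonneg_left ?_ (by positivity))
      (by positivity)
    exact pow_le_pow_right₀ (by norm_num) (by omega)
  refine ⟨Vx top, inferInstance, skelX top N, Fintype.card_subtype _, hM.isPure htop (by simp),
    skelX_degree top N htop hD, homogeneous_of_typedTrans hT htop (N + 1) hty,
    hM.spectral htop (by simp) (by omega) hcW0 (hS ∅ hcW0 (by simp; omega)), ?_, ?_, ?_⟩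
  · intro σ hσ hσN
    have hMl := hM.link hσ
    have hWσ : 0 < W top (σ.map (Function.Embedding.subtype _)) := hσ.2.2
    have hk : N - σ.card + 1 + (σ.map (Function.Embedding.subtype fun v => 0 < W top {v})).card =
        N + 1 := by
      rw [card_map]; omega
    refine ⟨hMl.spectral htop hk (by omega) hWσ (hS _ hWσ (by rw [card_map]; omega)), ?_⟩
    refine (hMl.expander htop hk hWσ hβ ?_).mono ?_
    · intro q hq hqk g
      exact hL _ (map_nonempty.2 hσ.1) hWσ q hq (by omega) g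
    · refine div_le_div_of_nonneg_left hβ.le (by positivity) ?_
      exact pow_le_pow_right₀ (by norm_num) (by omega)
  · rw [skeleton_skelX top (by omega : N - 1 ≤ N)]
    have h1 := skelX_cosystolic top (N - 1) htop (by omega) hne hD h0 fun s hs hsN =>
      hcos s hs (by omega)
    exact h1.mono (hc (N - 1) (by omega) ε0 h0 (min_le_left _ _))
  · intro d hd hdN
    rw [skeleton_skelX top (by omega : d ≤ N)]
    refine ⟨skelX_pure top d htop (by omega), skelX_connected top d htop hd (by omega) hne hconn,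
      skelX_degree top d htop hD, ?_, ?_⟩
    · have h1 := skelX_expander top d htop (by omega) hD h0 fun s hs hsd =>
        hexp s hs (by omega)
      exact h1.mono (hc d (by omega) ε0 h0 (min_le_left _ _))
    · intro σ hσ hσd
      have h1 := link_skelX_expander top d htop (by omega) hD hβ hL σ hσ hσd
      exact h1.mono (hc d (by omega) β hβ (min_le_right _ _))

/-- The stronger form. -/
theorem strong (N : ℕ) (hN : 2 ≤ N) : ∃ β : ℝ, 0 < β ∧ ∀ lam : ℝ, 0 < lam →
    ∃ (D C : ℕ) (ε : ℝ), 0 < ε ∧ ∃ (V : ℕ → Type) (_ : ∀ m, Fintype (V m))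
      (Y : ∀ m, AbstractSimplicialComplex (V m)), ∀ m,
        (m < Fintype.card (V m) ∧ Fintype.card (V m) ≤ C * (m + 1)) ∧
        IsPure (Y m) N ∧ degree (Y m) N ≤ D ∧ IsHomogeneous (Y m) N ∧
        IsSpectralExpander (Y m) N lam ∧
        (∀ σ ∈ Y m, σ.card < N → IsSpectralExpander (link (Y m) σ) (N - σ.card) lam ∧
          IsCoboundaryExpander (link (Y m) σ) (N - σ.card) β) ∧
        IsCosystolicExpander (skeleton (Y m) (N - 1)) (N - 1) ε ∧
        ∀ d : ℕ, 1 ≤ d → 2 * d ≤ N →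
          IsPure (skeleton (Y m) d) d ∧ (skel (skeleton (Y m) d)).Connected ∧
          degree (skeleton (Y m) d) d ≤ D ∧ IsCoboundaryExpander (skeleton (Y m) d) d ε ∧
          ∀ σ ∈ skeleton (Y m) d, σ.card < d →
            IsCoboundaryExpander (link (skeleton (Y m) d) σ) (d - σ.card) ε := by
  obtain ⟨β, hβ, H⟩ := props_XX N hN
  refine ⟨β / 2 ^ (N + 1), by positivity, fun lam hlam => ?_⟩
  obtain ⟨p, hfact, D', ε0, hε0, h⟩ := H lam hlam
  obtain ⟨D, ε, hε, hconv⟩ := strong_of_weights N D' hN β lam ε0 hβ hε0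
  obtain ⟨C, hC⟩ := all_scales (p := p) (ι := Fin (N + 1)) (by rw [Fintype.card_fin]; omega)
  refine ⟨D, C, ε, hε, ?_⟩
  have key : ∀ M : ℕ, ∃ (V : Type) (_ : Fintype V) (Y : AbstractSimplicialComplex V),
      (M < Fintype.card V ∧ Fintype.card V ≤ C * (M + 1)) ∧ IsPure Y N ∧ degree Y N ≤ D ∧ IsHomogeneous Y N ∧
        IsSpectralExpander Y N lam ∧
        (∀ σ ∈ Y, σ.card < N → IsSpectralExpander (link Y σ) (N - σ.card) lam ∧
          IsCoboundaryExpander (link Y σ) (N - σ.card) (β / 2 ^ (N + 1))) ∧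
        IsCosystolicExpander (skeleton Y (N - 1)) (N - 1) ε ∧
        ∀ d : ℕ, 1 ≤ d → 2 * d ≤ N →
          IsPure (skeleton Y d) d ∧ (skel (skeleton Y d)).Connected ∧
          degree (skeleton Y d) d ≤ D ∧ IsCoboundaryExpander (skeleton Y d) d ε ∧
          ∀ σ ∈ skeleton Y d, σ.card < d →
            IsCoboundaryExpander (link (skeleton Y d) σ) (d - σ.card) ε := by
    intro M
    obtain ⟨m, hm, hM⟩ := hC M
    let _ : Fintype (Sb (Fin (N + 1)) p m) := Fintype.ofFinite _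
    obtain ⟨h1, h2, h3, h4, h5, h6, h7, h8⟩ := h m hm
    obtain ⟨V, hV, Y, hc, hP⟩ := hconv _ (topX (Fin (N + 1)) p m) (GG (Fin (N + 1)) p m)
      (fun L => Module.finrank (ZMod p) L) h1 h2 h3 h4 (typedTrans_topX hm) (by
        intro v hv
        obtain ⟨g1, g2, -⟩ := finrank_vertex hm ((W_topX_pos_iff hm _).1 hv)
        rw [Fintype.card_fin] at g1 g2
        omega) h5 h6 h7 h8
    refine ⟨V, hV, Y, ?_, hP⟩
    have hnv : ((univ : Finset (Sb (Fin (N + 1)) p m)).filter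
        (fun v => 0 < W (topX (Fin (N + 1)) p m) {v})).card = nv (Fin (N + 1)) p m := by
      rw [nv, Nat.card_eq_fintype_card, Fintype.card_subtype]
      congr 1
      ext v
      simp only [mem_filter, mem_univ, true_and, W_topX_pos_iff hm]
    rw [hc, hnv]
    exact hM
  choose V hV Y h using key
  exact ⟨V, hV, Y, h⟩

/-- Q1 from the stronger form: take `N = 2 * d` and the `d`-skeleta. -/
theorem main_of_strong (d : ℕ) (hd : 1 ≤ d) :
    ∃ (D : ℕ) (ε : ℝ), 0 < ε ∧ ∃ (V : ℕ → Type) (_ : ∀ m, Fintype (V m))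
      (X : ∀ m, AbstractSimplicialComplex (V m)),
      Filter.Tendsto (fun m => Fintype.card (V m)) Filter.atTop Filter.atTop ∧
      ∀ m, IsPure (X m) d ∧ (skel (X m)).Connected ∧ degree (X m) d ≤ D ∧
        IsCoboundaryExpander (X m) d ε := by
  obtain ⟨β, _, H⟩ := strong (2 * d) (by omega)
  obtain ⟨D, C, ε, hε, V, hV, Y, hP⟩ := H 1 one_pos
  refine ⟨D, ε, hε, V, hV, fun m => skeleton (Y m) d,
    Filter.tendsto_atTop_mono (fun m => (hP m).1.1.le) Filter.tendsto_id, fun m => ?_⟩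
  obtain ⟨-, -, -, -, -, -, -, h⟩ := hP m
  obtain ⟨h1, h2, h3, h4, -⟩ := h d hd le_rfl
  exact ⟨h1, h2, h3, h4⟩

end Vale.Agent.P067
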