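import Vale.Agent.P067.H301.Defs
import Vale.Agent.P067.Bdl.B1

/-!
# P067, stronger form: complexes given by top simplices

`Mod X top σ e`: via the embedding `e` of the vertices, `X` is the link of `σ` in the complex with
top simplices `top`.
-/

set_option autoImplicit false

open Finset

namespace Vale.Agent.P067

attribute [local instance] Classical.propDecidable

attribute [-instance] Subtype.instDecidableEq

/-- Via `e`, the complex `X` is the link of `σ` in the complex with top simplices `top`. -/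
structure Mod {V α : Type} (X : AbstractSimplicialComplex V) (top : Finset (Finset α))
    (σ : Finset α) (e : V ↪ α) : Prop where
  mem : ∀ s : Finset V, s ∈ X ↔ s.Nonempty ∧ 0 < W top (σ ∪ s.map e)
  disj : ∀ v, e v ∉ σ
  surj : ∀ a, a ∉ σ → 0 < W top (insert a σ) → ∃ v, e v = a

namespace Mod

variable {V α : Type} [Fintype V] [Fintype α] {X : AbstractSimplicialComplex V}
  {top : Finset (Finset α)} {σ : Finset α} {e : V ↪ α}

omit [Fintype V] [Fintype α] in
theorem disjoint (h : Mod X top σ e) (s : Finset V) : Disjoint (s.map e) σ := by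
  rw [disjoint_left]
  intro a ha
  obtain ⟨v, _, rfl⟩ := mem_map.1 ha
  exact h.disj v

omit [Fintype α] in
theorem exists_map (h : Mod X top σ e) {τ : Finset α} (hd : Disjoint τ σ)
    (hW : 0 < W top (σ ∪ τ)) : ∃ s : Finset V, s.map e = τ := by
  refine ⟨univ.filter fun v => e v ∈ τ, ?_⟩
  ext a
  simp only [mem_map, mem_filter, mem_univ, true_and]
  constructor
  · rintro ⟨v, hv, rfl⟩
    exact hv
  · intro ha
    obtain ⟨v, hv⟩ := h.surj a (disjoint_left.1 hd ha)
      (lt_of_lt_of_le hW (W_anti top (by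
        intro x hx
        rcases mem_insert.1 hx with rfl | hx
        · exact mem_union_right _ ha
        · exact mem_union_left _ hx)))
    exact ⟨v, by rw [hv]; exact ha, hv⟩

omit [Fintype V] [Fintype α] in
theorem mem_of_subset (h : Mod X top σ e) {s : Finset V} (hs : s.Nonempty) {C : Finset α}
    (hC : C ∈ top) (hsC : σ ∪ s.map e ⊆ C) : s ∈ X :=
  (h.mem s).2 ⟨hs, W_pos_iff.2 ⟨C, hC, hsC⟩⟩

omit [Fintype V] [Fintype α] in
theorem mem_top (h : Mod X top σ e) {N k : ℕ} (hN : ∀ C ∈ top, C.card = N)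
    (hk : k + 1 + σ.card = N) {s : Finset V} (hs : s ∈ X) (hc : s.card = k + 1) :
    σ ∪ s.map e ∈ top := by
  obtain ⟨C, hC, hsC⟩ := W_pos_iff.1 ((h.mem s).1 hs).2
  have h1 : (σ ∪ s.map e).card = N := by
    rw [card_union_of_disjoint (h.disjoint s).symm, card_map, hc]
    omega
  rw [eq_of_subset_of_card_le hsC (by rw [h1, hN C hC])]
  exact hC

omit [Fintype α] in
/-- The number of top faces containing `s`. -/
theorem card_faces (h : Mod X top σ e) {N k : ℕ} (hN : ∀ C ∈ top, C.card = N)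
    (hk : k + 1 + σ.card = N) (s : Finset V) :
    ((univ : Finset (Face X k)).filter fun t => s ⊆ t.1).card = W top (σ ∪ s.map e) := by
  unfold W
  refine card_bij (fun t _ => σ ∪ t.1.map e) ?_ ?_ ?_
  · intro t ht
    rw [mem_filter] at ht ⊢
    exact ⟨h.mem_top hN hk t.2.1 t.2.2, union_subset_union_right (map_subset_map.2 ht.2)⟩
  · intro t _ t' _ heq
    apply Subtype.ext
    apply map_injective e
    have h1 : (σ ∪ t.1.map e) \ σ = t.1.map e := by
      rw [union_sdiff_left, sdiff_eq_self_of_disjoint (h.disjoint _)]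
    have h2 : (σ ∪ t'.1.map e) \ σ = t'.1.map e := by
      rw [union_sdiff_left, sdiff_eq_self_of_disjoint (h.disjoint _)]
    rw [← h1, ← h2]
    exact congrArg (· \ σ) heq
  · intro C hC
    rw [mem_filter] at hC
    obtain ⟨hC, hsub⟩ := hC
    have hσC : σ ⊆ C := subset_union_left.trans hsub
    have hu : σ ∪ C \ σ = C := union_sdiff_of_subset hσC
    obtain ⟨t, ht⟩ := h.exists_map (τ := C \ σ) sdiff_disjoint (by
      rw [hu]; exact W_pos_iff.2 ⟨C, hC, subset_rfl⟩)
    have hc : t.card = k + 1 := by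
      have h1 := congrArg Finset.card ht
      rw [card_map, card_sdiff_of_subset hσC, hN C hC] at h1
      omega
    have htX : t ∈ X := h.mem_of_subset (card_pos.1 (by omega)) hC (by rw [ht, hu])
    refine ⟨⟨t, htX, hc⟩, ?_, by rw [ht, hu]⟩
    rw [mem_filter]
    refine ⟨mem_univ _, ?_⟩
    rw [← map_subset_map (f := e), ht]
    intro a ha
    rw [mem_sdiff]
    exact ⟨hsub (mem_union_right _ ha), disjoint_left.1 (h.disjoint s) ha⟩

omit [Fintype α] in
theorem card_face (h : Mod X top σ e) {N k : ℕ} (hN : ∀ C ∈ top, C.card = N)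
    (hk : k + 1 + σ.card = N) : Fintype.card (Face X k) = W top σ := by
  have h1 := h.card_faces hN hk ∅
  rw [map_empty, union_empty] at h1
  rw [← h1, ← card_univ]
  congr 1
  ext t
  simp

omit [Fintype α] in
theorem wt_eq (h : Mod X top σ e) {N k : ℕ} (hN : ∀ C ∈ top, C.card = N)
    (hk : k + 1 + σ.card = N) {i : ℕ} (s : Face X i) :
    wt X k s = (W top (σ ∪ s.1.map e) : ℝ) / ((Nat.choose (k + 1) (i + 1) : ℝ) * W top σ) := by
  rw [wt, h.card_faces hN hk, h.card_face hN hk]

omit [Fintype α] in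
theorem isPure (h : Mod X top σ e) {N k : ℕ} (hN : ∀ C ∈ top, C.card = N)
    (hk : k + 1 + σ.card = N) : IsPure X k := by
  intro s hs
  obtain ⟨C, hC, hsub⟩ := W_pos_iff.1 ((h.mem s).1 hs).2
  have hσC : σ ⊆ C := subset_union_left.trans hsub
  have hu : σ ∪ C \ σ = C := union_sdiff_of_subset hσC
  obtain ⟨t, ht⟩ := h.exists_map (τ := C \ σ) sdiff_disjoint (by
    rw [hu]; exact W_pos_iff.2 ⟨C, hC, subset_rfl⟩)
  have hc : t.card = k + 1 := by
    have h1 := congrArg Finset.card ht
    rw [card_map, card_sdiff_of_subset hσC, hN C hC] at h1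
    omega
  refine ⟨t, h.mem_of_subset (card_pos.1 (by omega)) hC (by rw [ht, hu]), hc, ?_⟩
  rw [← map_subset_map (f := e), ht]
  intro a ha
  rw [mem_sdiff]
  exact ⟨hsub (mem_union_right _ ha), disjoint_left.1 (h.disjoint s) ha⟩

/-! ### Coboundary expansion -/

theorem nrmL_eq (h : Mod X top σ e) {i : ℕ} (g : Finset α → ZMod 2) :
    nrmL top σ (i + 1) g = ∑ s ∈ (univ : Finset (Face X i)).filter
      (fun s => g (s.1.map e) ≠ 0), W top (σ ∪ s.1.map e) := by
  unfold nrmL
  rw [← sum_filter_ne_zero]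
  symm
  refine sum_bij (fun s _ => s.1.map e) ?_ ?_ ?_ ?_
  · intro s hs
    rw [mem_filter] at hs
    simp only [mem_filter, mem_univ, true_and]
    exact ⟨⟨by rw [card_map]; exact s.2.2, h.disjoint _, hs.2⟩, ((h.mem _).1 s.2.1).2.ne'⟩
  · intro t _ t' _ heq
    exact Subtype.ext (map_injective e heq)
  · intro t ht
    simp only [mem_filter, mem_univ, true_and] at ht
    obtain ⟨⟨h1, h2, h3⟩, h4⟩ := ht
    obtain ⟨t', rfl⟩ := h.exists_map h2 (Nat.pos_of_ne_zero h4)
    rw [card_map] at h1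
    refine ⟨⟨t', (h.mem _).2 ⟨card_pos.1 (by omega), Nat.pos_of_ne_zero h4⟩, h1⟩, ?_, rfl⟩
    rw [mem_filter]
    exact ⟨mem_univ _, h3⟩
  · intro s _
    rfl

omit [Fintype α] in
theorem dd_map (_h : Mod X top σ e) {i : ℕ} (g : Finset α → ZMod 2) (t : Face X (i + 1)) :
    dd g (t.1.map e) =
      ∑ s ∈ (univ : Finset (Face X i)).filter (fun s => s.1 ⊆ t.1), g (s.1.map e) := by
  have h1 : dd g (t.1.map e) = ∑ v ∈ t.1, g ((t.1.erase v).map e) := by
    unfold dd
    rw [sum_map]
    refine sum_congr rfl fun v _ => ?_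
    rw [map_erase]
  rw [h1]
  refine sum_bij (fun v hv => ⟨t.1.erase v, ?_, ?_⟩) ?_ ?_ ?_ ?_
  · have hc : (t.1.erase v).card = i + 1 := by rw [card_erase_of_mem hv, t.2.2]; rfl
    exact (X.isRelLowerSet_faces t.2.1).2 (erase_subset _ _) (card_pos.1 (by omega))
  · rw [card_erase_of_mem hv, t.2.2]; rfl
  · intro v hv
    rw [mem_filter]
    exact ⟨mem_univ _, erase_subset _ _⟩
  · intro v hv w hw heq
    have e1 : t.1.erase v = t.1.erase w := congrArg Subtype.val heq
    by_contra hne
    have : v ∈ t.1.erase w := mem_erase.2 ⟨hne, hv⟩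
    rw [← e1] at this
    exact notMem_erase v _ this
  · intro s hs
    rw [mem_filter] at hs
    have hc : (t.1 \ s.1).card = 1 := by
      rw [card_sdiff_of_subset hs.2, t.2.2, s.2.2]
      omega
    obtain ⟨v, hv⟩ := card_eq_one.1 hc
    have hvt : v ∈ t.1 \ s.1 := by rw [hv]; exact mem_singleton_self v
    refine ⟨v, (mem_sdiff.1 hvt).1, ?_⟩
    apply Subtype.ext
    change t.1.erase v = s.1
    rw [← sdiff_singleton_eq_erase, ← hv, Finset.sdiff_sdiff_eq_self hs.2]
  · intro v _
    rfl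

theorem cnorm_eq (h : Mod X top σ e) {N k : ℕ} (hN : ∀ C ∈ top, C.card = N)
    (hk : k + 1 + σ.card = N) {i : ℕ} (f : Face X i → ZMod 2) (g : Finset α → ZMod 2)
    (hg : ∀ s : Face X i, g (s.1.map e) = f s) :
    cnorm X k f =
      (nrmL top σ (i + 1) g : ℝ) / ((Nat.choose (k + 1) (i + 1) : ℝ) * W top σ) := by
  rw [h.nrmL_eq, cnorm, Nat.cast_sum, sum_div]
  have e1 : (univ : Finset (Face X i)).filter (fun s => g (s.1.map e) ≠ 0) =
      (univ : Finset (Face X i)).filter (fun s => f s ≠ 0) := by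
    ext s
    simp only [mem_filter, mem_univ, true_and, hg]
  rw [e1]
  exact sum_congr rfl fun s _ => h.wt_eq hN hk s

end Mod

theorem cnorm_nonneg' {V : Type} [Fintype V] (X : AbstractSimplicialComplex V) (d : ℕ) {i : ℕ}
    (f : Face X i → ZMod 2) : 0 ≤ cnorm X d f := by
  refine sum_nonneg fun s _ => ?_
  unfold wt
  (clear * -; positivity)

theorem cdist_le {V : Type} [Fintype V] (X : AbstractSimplicialComplex V) (d : ℕ) {i : ℕ}
    (f : Face X i → ZMod 2) {A : Set (Face X i → ZMod 2)} {a : Face X i → ZMod 2} (ha : a ∈ A) :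
    cdist X d f A ≤ cnorm X d (f - a) := by
  refine csInf_le ⟨0, ?_⟩ ⟨a, ha, rfl⟩
  rintro _ ⟨b, _, rfl⟩
  exact cnorm_nonneg' X d _

namespace Mod

variable {V α : Type} [Fintype V] [Fintype α] {X : AbstractSimplicialComplex V}
  {top : Finset (Finset α)} {σ : Finset α} {e : V ↪ α}

/-- Coboundary expansion with the official weights, from the coboundary inequality. -/
theorem expander (h : Mod X top σ e) {N k : ℕ} (hN : ∀ C ∈ top, C.card = N)
    (hk : k + 1 + σ.card = N) (hW : 0 < W top σ) {β : ℝ} (hβ : 0 < β)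
    (hexp : ∀ q : ℕ, 1 ≤ q → q ≤ k → ∀ g : Finset α → ZMod 2, ∃ u : Finset α → ZMod 2,
      β * (nrmL top σ q (fun τ => g τ + dd u τ) : ℝ) ≤ (nrmL top σ (q + 1) (dd g) : ℝ)) :
    IsCoboundaryExpander X k (β / 2 ^ (k + 1)) := by
  intro i hi f
  let F : Finset α → ZMod 2 := fun τ =>
    if h : ∃ s : Face X i, s.1.map e = τ then f h.choose else 0
  have hF : ∀ s : Face X i, F (s.1.map e) = f s := by
    intro s
    have h : ∃ s' : Face X i, s'.1.map e = s.1.map e := ⟨s, rfl⟩
    change (if h : ∃ s' : Face X i, s'.1.map e = s.1.map e then f h.choose else 0) = _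
    rw [dif_pos h]
    congr 1
    exact Subtype.ext (map_injective e h.choose_spec)
  obtain ⟨u, hu⟩ := hexp (i + 1) (by omega) (by omega) F
  set a : Face X i → ZMod 2 := fun s => dd u (s.1.map e) with ha
  have hmem : a ∈ cobs X i := by
    cases i with
    | zero =>
      refine ⟨u ∅, fun s => ?_⟩
      rw [ha]
      obtain ⟨v, hv⟩ := card_eq_one.1 (s.2.2 : s.1.card = 0 + 1)
      have : s.1.map e = {e v} := by rw [hv]; simp
      simp only [this]
      simp [dd]
    | succ j => exact ⟨fun r => u (r.1.map e), funext fun t => (h.dd_map u t).symm⟩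
  have h1 := cdist_le X k f hmem
  have h2 := h.cnorm_eq hN hk (f - a) (fun τ => F τ + dd u τ) (fun s => by
    rw [hF, Pi.sub_apply, ha]
    exact (CharTwo.sub_eq_add _ _).symm)
  have h3 := h.cnorm_eq hN hk (i := i + 1) (cobd X i f) (dd F) (fun t => by
    rw [h.dd_map F t, cobd]
    exact sum_congr rfl fun s _ => hF s)
  rw [h3]
  refine (mul_le_mul_of_nonneg_left (h1.trans_eq h2) (by positivity)).trans ?_
  have hWR : (0 : ℝ) < W top σ := by exact_mod_cast hW
  have hc1 : (1 : ℝ) ≤ (Nat.choose (k + 1) (i + 1) : ℝ) := by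
    exact_mod_cast Nat.choose_pos (by omega : i + 1 ≤ k + 1)
  have hc2 : (0 : ℝ) < (Nat.choose (k + 1) (i + 1 + 1) : ℝ) := by
    exact_mod_cast Nat.choose_pos (by omega : i + 1 + 1 ≤ k + 1)
  have hc3 : (Nat.choose (k + 1) (i + 1 + 1) : ℝ) ≤ 2 ^ (k + 1) := by
    exact_mod_cast Nat.choose_le_two_pow (k + 1) (i + 1 + 1)
  set A : ℝ := (nrmL top σ (i + 1) (fun τ => F τ + dd u τ) : ℝ) with hA
  set B : ℝ := (nrmL top σ (i + 1 + 1) (dd F) : ℝ) with hB
  have hA0 : 0 ≤ A := Nat.cast_nonneg _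
  have hB0 : 0 ≤ B := Nat.cast_nonneg _
  calc β / 2 ^ (k + 1) * (A / ((Nat.choose (k + 1) (i + 1) : ℝ) * W top σ))
      ≤ β / 2 ^ (k + 1) * (A / W top σ) := by
        refine mul_le_mul_of_nonneg_left ?_ (by positivity)
        refine div_le_div_of_nonneg_left hA0 hWR ?_
        exact le_mul_of_one_le_left hWR.le hc1
    _ = (β * A) / (2 ^ (k + 1) * W top σ) := by
        rw [div_mul_div_comm]
    _ ≤ B / (2 ^ (k + 1) * W top σ) := by
        exact div_le_div_of_nonneg_right hu (by positivity)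
    _ ≤ B / ((Nat.choose (k + 1) (i + 1 + 1) : ℝ) * W top σ) := by
        refine div_le_div_of_nonneg_left hB0 (by positivity) ?_
        exact mul_le_mul_of_nonneg_right hc3 hWR.le

end Mod

end Vale.Agent.P067
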