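import Vale.Agent.P067.H301.Mod

/-!
# P067, stronger form: the spectral gap with the official weights
-/

set_option autoImplicit false

open Finset

namespace Vale.Agent.P067

attribute [local instance] Classical.propDecidable

attribute [-instance] Subtype.instDecidableEq

section Sums

variable {V : Type} [Fintype V] (X : AbstractSimplicialComplex V)

theorem sum_face_zero (F : Finset V → ℝ) : ∑ s : Face X 0, F s.1 = ∑ v : V, F {v} := by
  symm
  refine sum_bij (fun v _ => ⟨{v}, X.singleton_mem v, by simp⟩) ?_ ?_ ?_ ?_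
  · intro v _
    exact mem_univ _
  · intro v _ w _ h
    exact singleton_injective (congrArg Subtype.val h)
  · intro s _
    obtain ⟨v, hv⟩ := card_eq_one.1 (s.2.2 : s.1.card = 0 + 1)
    exact ⟨v, mem_univ _, Subtype.ext hv.symm⟩
  · intro v _
    rfl

theorem sum_pairs (F : Finset V → ℝ) :
    ∑ u : V, ∑ v ∈ univ.filter (fun v => v ≠ u), F {u, v} =
      2 * ∑ s ∈ (univ : Finset (Finset V)).filter (fun s => s.card = 2), F s := by
  have h1 : ∑ u : V, ∑ v ∈ univ.filter (fun v => v ≠ u), F {u, v} =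
      ∑ q ∈ (univ : Finset V).offDiag, F {q.1, q.2} := by
    rw [sum_sigma']
    refine sum_bij (fun q _ => (q.1, q.2)) ?_ ?_ ?_ ?_
    · intro q hq
      simp only [mem_sigma, mem_univ, mem_filter, true_and] at hq
      simp only [mem_offDiag, mem_univ, true_and]
      exact fun h => hq h.symm
    · rintro ⟨a, b⟩ _ ⟨c, d⟩ _ h
      simp only [Prod.mk.injEq] at h
      obtain ⟨rfl, rfl⟩ := h
      rfl
    · intro q hq
      simp only [mem_offDiag, mem_univ, true_and] at hq
      exact ⟨⟨q.1, q.2⟩, by simpa using fun h => hq h.symm, rfl⟩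
    · intro q _
      rfl
  rw [h1, mul_sum, ← sum_fiberwise_of_maps_to (s := (univ : Finset V).offDiag)
    (t := (univ : Finset (Finset V)).filter (fun s => s.card = 2)) (g := fun q => {q.1, q.2})]
  · refine sum_congr rfl fun s hs => ?_
    rw [mem_filter] at hs
    have h2 : ((univ : Finset V).offDiag).filter (fun q => ({q.1, q.2} : Finset V) = s) =
        s.offDiag := by
      ext q
      simp only [mem_filter, mem_offDiag, mem_univ, true_and]
      constructor
      · rintro ⟨h, rfl⟩
        exact ⟨by simp, by simp, h⟩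
      · rintro ⟨h3, h4, h5⟩
        refine ⟨h5, eq_of_subset_of_card_le ?_ ?_⟩
        · intro x hx
          rcases mem_insert.1 hx with rfl | hx
          · exact h3
          · rw [mem_singleton.1 hx]; exact h4
        · rw [hs.2, card_pair h5]
    rw [h2, sum_congr rfl (g := fun _ => F s)]
    · rw [sum_const, offDiag_card, hs.2]
      simp
    · intro q hq
      rw [← h2, mem_filter] at hq
      rw [hq.2]
  · intro q hq
    simp only [mem_offDiag, mem_univ, true_and] at hq
    simp only [mem_filter, mem_univ, true_and]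
    exact card_pair hq

theorem sum_face_one (F : Finset V → ℝ) (hF : ∀ s, s.card = 2 → s ∉ X → F s = 0) :
    2 * ∑ s : Face X 1, F s.1 = ∑ u : V, ∑ v ∈ univ.filter (fun v => v ≠ u), F {u, v} := by
  rw [sum_pairs]
  congr 1
  have h1 : ∑ s : Face X 1, F s.1 =
      ∑ s ∈ (univ : Finset (Finset V)).filter (fun s => s ∈ X ∧ s.card = 2), F s := by
    refine sum_bij (fun s _ => s.1) ?_ ?_ ?_ ?_
    · intro s _
      rw [mem_filter]
      exact ⟨mem_univ _, s.2⟩
    · intro s _ t _ h
      exact Subtype.ext h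
    · intro s hs
      rw [mem_filter] at hs
      exact ⟨⟨s, hs.2⟩, mem_univ _, rfl⟩
    · intro s _
      rfl
  rw [h1]
  refine sum_subset ?_ ?_
  · intro s hs
    rw [mem_filter] at hs ⊢
    exact ⟨hs.1, hs.2.2⟩
  · intro s hs hs'
    rw [mem_filter] at hs hs'
    exact hF s hs.2 fun h => hs' ⟨hs.1, h, hs.2⟩

end Sums

namespace Mod

variable {V α : Type} [Fintype V] [Fintype α] {X : AbstractSimplicialComplex V}
  {top : Finset (Finset α)} {σ : Finset α} {e : V ↪ α}

/-- The spectral gap with the official weights. -/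
theorem spectral (h : Mod X top σ e) {N k : ℕ} (hN : ∀ C ∈ top, C.card = N)
    (hk : k + 1 + σ.card = N) (hk1 : 1 ≤ k) (hW : 0 < W top σ) {lam : ℝ}
    (hS : SpecGap top N σ lam) : IsSpectralExpander X k lam := by
  intro g hg
  let G : α → ℝ := fun a => if h : ∃ v, e v = a then g h.choose else 0
  have hG : ∀ v, G (e v) = g v := by
    intro v
    have h : ∃ v', e v' = e v := ⟨v, rfl⟩
    change (if h : ∃ v', e v' = e v then g h.choose else 0) = _
    rw [dif_pos h]
    congr 1
    exact e.injective h.choose_spec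
  have hG0 : ∀ a, (∀ v, e v ≠ a) → G a = 0 := by
    intro a ha
    change (if h : ∃ v, e v = a then g h.choose else 0) = _
    rw [dif_neg (by rintro ⟨v, hv⟩; exact ha v hv)]
  have hWR : (0 : ℝ) < W top σ := by exact_mod_cast hW
  have hNR : (N : ℝ) - σ.card - 1 = k := by
    rw [← hk]; push_cast; ring
  -- sums over `α`
  have key : ∀ F : α → ℝ, (∀ a, (∀ v, e v ≠ a) → F a = 0) →
      ∀ (p : α → Prop) [DecidablePred p] [DecidablePred fun v => p (e v)],
        ∑ a ∈ univ.filter p, F a = ∑ v ∈ univ.filter (fun v => p (e v)), F (e v) := by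
    intro F hF p _ _
    have h1 : (univ.filter (fun v => p (e v))).map e ⊆ univ.filter p := by
      intro a ha
      simp only [mem_map, mem_filter, mem_univ, true_and] at ha
      obtain ⟨v, hv, rfl⟩ := ha
      simpa using hv
    rw [← sum_map (univ.filter (fun v => p (e v))) e F]
    symm
    refine sum_subset h1 fun a ha ha' => hF a fun v hv => ha' ?_
    subst hv
    simp only [mem_map, mem_filter, mem_univ, true_and] at ha ⊢
    exact ⟨v, ha, rfl⟩
  have hv' : ∀ v, e v ∉ σ := h.disj
  have e1 : ∀ F : V → ℝ, ∀ [DecidablePred fun v => e v ∉ σ],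
      ∑ v ∈ univ.filter (fun v => e v ∉ σ), F v = ∑ v : V, F v := by
    intro F _
    rw [filter_true_of_mem fun v _ => hv' v]
  have e2 : ∀ u, ∀ F : V → ℝ, ∀ [DecidablePred fun v => e v ∉ σ ∧ e v ≠ e u],
      ∑ v ∈ univ.filter (fun v => e v ∉ σ ∧ e v ≠ e u), F v =
      ∑ v ∈ univ.filter (fun v => v ≠ u), F v := by
    intro u F _
    congr 1
    ext v
    simp only [mem_filter, mem_univ, true_and, hv' v, not_false_eq_true, ne_eq,
      EmbeddingLike.apply_eq_iff_eq]
  have hS1 := hS G
  rw [hNR] at hS1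
  rw [key (fun v => (W top (insert v σ) : ℝ) * G v) (fun a ha => by rw [hG0 a ha, mul_zero]),
    key (fun v => (W top (insert v σ) : ℝ) * G v ^ 2) (fun a ha => by rw [hG0 a ha]; simp),
    key (fun u => ∑ v ∈ univ.filter (fun v => v ∉ σ ∧ v ≠ u),
      (W top (insert u (insert v σ)) : ℝ) * G u * G v) (fun a ha => by
        refine sum_eq_zero fun b _ => ?_
        rw [hG0 a ha]; simp), e1, e1, e1] at hS1
  have hS2 : ∀ u, ∑ v ∈ univ.filter (fun v => v ∉ σ ∧ v ≠ e u),
      (W top (insert (e u) (insert v σ)) : ℝ) * G (e u) * G v =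
      ∑ v ∈ univ.filter (fun v => v ≠ u),
        (W top (insert (e u) (insert (e v) σ)) : ℝ) * (g u * g v) := by
    intro u
    rw [key (fun v => (W top (insert (e u) (insert v σ)) : ℝ) * G (e u) * G v)
      (fun a ha => by rw [hG0 a ha, mul_zero]), e2]
    refine sum_congr rfl fun v _ => ?_
    rw [hG, hG, mul_assoc]
  rw [sum_congr rfl fun u _ => hS2 u] at hS1
  simp only [hG] at hS1
  -- the official sums
  have o1 : ∀ c : V → ℝ, ∑ s : Face X 0, wt X k s * ∏ v ∈ s.1, c v =
      (∑ v, (W top (insert (e v) σ) : ℝ) * c v) / (((k : ℝ) + 1) * W top σ) := by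
    intro c
    have h1 : ∀ s : Face X 0, wt X k s * ∏ v ∈ s.1, c v =
        (W top (σ ∪ s.1.map e) : ℝ) / ((Nat.choose (k + 1) (0 + 1) : ℝ) * W top σ) *
          ∏ v ∈ s.1, c v := fun s => by rw [h.wt_eq hN hk]
    rw [sum_congr rfl fun s _ => h1 s, sum_face_zero X (fun s =>
      (W top (σ ∪ s.map e) : ℝ) / ((Nat.choose (k + 1) (0 + 1) : ℝ) * W top σ) *
          ∏ v ∈ s, c v), sum_div]
    refine sum_congr rfl fun v _ => ?_
    rw [prod_singleton, map_singleton, union_comm, ← insert_eq, zero_add, Nat.choose_one_right]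
    push_cast
    ring
  have o2 : ∑ s : Face X 1, wt X k s * ∏ v ∈ s.1, g v =
      (∑ u, ∑ v ∈ univ.filter (fun v => v ≠ u),
        (W top (insert (e u) (insert (e v) σ)) : ℝ) * (g u * g v)) /
        (((k : ℝ) + 1) * k * W top σ) := by
    have h1 : ∀ s : Face X 1, wt X k s * ∏ v ∈ s.1, g v =
        (W top (σ ∪ s.1.map e) : ℝ) / ((Nat.choose (k + 1) (1 + 1) : ℝ) * W top σ) *
          ∏ v ∈ s.1, g v := fun s => by rw [h.wt_eq hN hk]
    have h2 := sum_face_one X (fun s =>
      (W top (σ ∪ s.map e) : ℝ) / ((Nat.choose (k + 1) (1 + 1) : ℝ) * W top σ) *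
          ∏ v ∈ s, g v) (fun s hs hsX => by
        have h3 : W top (σ ∪ s.map e) = 0 := by
          by_contra hne
          exact hsX ((h.mem s).2 ⟨card_pos.1 (by omega), Nat.pos_of_ne_zero hne⟩)
        rw [h3]; simp)
    have h4 : (2 : ℝ) * (Nat.choose (k + 1) (1 + 1) : ℝ) = ((k : ℝ) + 1) * k := by
      have h5 : (Nat.choose (k + 1) 2) * 2 = (k + 1) * k := by
        have := Nat.add_one_mul_choose_eq k 1
        rw [Nat.choose_one_right] at this
        exact this.symm
      have h6 : ((Nat.choose (k + 1) 2 : ℕ) : ℝ) * 2 = ((k : ℝ) + 1) * k := by exact_mod_cast h5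
      rw [mul_comm]
      exact h6
    have hc : (0 : ℝ) < (Nat.choose (k + 1) (1 + 1) : ℝ) := by
      exact_mod_cast Nat.choose_pos (by omega : 1 + 1 ≤ k + 1)
    rw [sum_congr rfl fun s _ => h1 s]
    have h7 : ∑ u : V, ∑ v ∈ univ.filter (fun v => v ≠ u),
        (fun s : Finset V => (W top (σ ∪ s.map e) : ℝ) /
          ((Nat.choose (k + 1) (1 + 1) : ℝ) * W top σ) * ∏ v ∈ s, g v) {u, v} =
        (∑ u, ∑ v ∈ univ.filter (fun v => v ≠ u),
          (W top (insert (e u) (insert (e v) σ)) : ℝ) * (g u * g v)) /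
          ((Nat.choose (k + 1) (1 + 1) : ℝ) * W top σ) := by
      rw [sum_div]
      refine sum_congr rfl fun u _ => ?_
      rw [sum_div]
      refine sum_congr rfl fun v hv => ?_
      rw [mem_filter] at hv
      have h8 : σ ∪ ({u, v} : Finset V).map e = insert (e u) (insert (e v) σ) := by
        ext a
        simp only [map_insert, map_singleton, mem_union, mem_insert, mem_singleton]
        tauto
      simp only [h8, prod_pair hv.2.symm]
      ring
    rw [h7] at h2
    rw [← h4, ← mul_right_inj' (two_ne_zero (α := ℝ)), h2]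
    field_simp
  rw [o1] at hg ⊢
  rw [o2]
  have hkR : (1 : ℝ) ≤ k := by exact_mod_cast hk1
  have hden : (0 : ℝ) < ((k : ℝ) + 1) * W top σ := by positivity
  have hg0 : ∑ v, (W top (insert (e v) σ) : ℝ) * g v = 0 := by
    rcases div_eq_zero_iff.1 hg with h1 | h1
    · exact h1
    · exact absurd h1 hden.ne'
  rw [hg0] at hS1
  have hS3 : (∑ u, ∑ v ∈ univ.filter (fun v => v ≠ u),
      (W top (insert (e u) (insert (e v) σ)) : ℝ) * (g u * g v)) ≤
      k * (lam * ∑ v, (W top (insert (e v) σ) : ℝ) * g v ^ 2) := by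
    refine hS1.trans (le_of_eq ?_)
    simp
  rw [div_le_iff₀ (by positivity)]
  refine hS3.trans (le_of_eq ?_)
  field_simp

end Mod

end Vale.Agent.P067
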