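import Vale.Agent.P067.H301.Spec

/-!
# P067, stronger form: the complexes `Y`, their links and skeleta
-/

set_option autoImplicit false

open Finset

namespace Vale.Agent.P067

attribute [local instance] Classical.propDecidable

attribute [-instance] Subtype.instDecidableEq

attribute [-instance] Submodule.decidableEq

theorem IsCoboundaryExpander.mono {V : Type} [Fintype V] {X : AbstractSimplicialComplex V}
    {d : ℕ} {ε ε' : ℝ} (h : IsCoboundaryExpander X d ε) (hle : ε' ≤ ε) :
    IsCoboundaryExpander X d ε' := by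
  intro i hi f
  refine le_trans (mul_le_mul_of_nonneg_right hle ?_) (h i hi f)
  refine Real.sInf_nonneg ?_
  rintro _ ⟨b, _, rfl⟩
  exact cnorm_nonneg' X d _

/-- The whole complex. -/
theorem mod_skelX {α : Type} {top : Finset (Finset α)} {N : ℕ}
    (hN : ∀ C ∈ top, C.card = N + 1) :
    Mod (skelX top N) top ∅ (Function.Embedding.subtype _) where
  mem s := by
    rw [mem_skelX, empty_union]
    constructor
    · rintro ⟨h1, _, h3⟩
      exact ⟨h1, h3⟩
    · rintro ⟨h1, h3⟩
      refine ⟨h1, ?_, h3⟩
      have := card_le_of_W_pos hN h3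
      rwa [card_map] at this
  disj v := notMem_empty _
  surj a _ hW := ⟨⟨a, hW⟩, rfl⟩

/-- The links. -/
theorem Mod.link {V α : Type} {Y : AbstractSimplicialComplex V} {top : Finset (Finset α)}
    {e : V ↪ α} (h : Mod Y top ∅ e) {σ : Finset V} (_hσ : σ ∈ Y) :
    Mod (link Y σ) top (σ.map e) ((Function.Embedding.subtype _).trans e) where
  mem s := by
    have h1 : (∅ : Finset α) ∪ (σ ∪ s.map (Function.Embedding.subtype _)).map e =
        σ.map e ∪ s.map ((Function.Embedding.subtype _).trans e) := by
      rw [empty_union, map_union, map_map]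
    constructor
    · rintro ⟨h2, h3⟩
      exact ⟨h2, h1 ▸ ((h.mem _).1 h3).2⟩
    · rintro ⟨h2, h3⟩
      exact ⟨h2, (h.mem _).2 ⟨h2.map.mono subset_union_right, h1.symm ▸ h3⟩⟩
  disj v := by
    rw [Function.Embedding.trans_apply, mem_map']
    exact v.2.1
  surj a ha hW := by
    obtain ⟨v, rfl⟩ := h.surj a (notMem_empty _) (lt_of_lt_of_le hW (W_anti top (by
      intro x hx
      rw [mem_insert] at hx ⊢
      rcases hx with hx | hx
      · exact Or.inl hx
      · exact absurd hx (notMem_empty _))))
    rw [mem_map'] at ha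
    refine ⟨⟨v, ha, (h.mem _).2 ⟨insert_nonempty _ _, ?_⟩⟩, rfl⟩
    rw [empty_union, map_insert]
    exact hW

/-- Typed transitivity gives homogeneity. -/
theorem homogeneous_of_typedTrans {α G : Type} [Group G] [MulAction G α]
    {top : Finset (Finset α)} {ty : α → ℕ} (T : TypedTrans G top ty) {N : ℕ}
    [Fintype (Vx top)] (hN : ∀ C ∈ top, C.card = N + 1) (c0 : ℕ)
    (hty : ∀ v, 0 < W top {v} → c0 ≤ ty v ∧ ty v < c0 + (N + 1)) :
    IsHomogeneous (skelX top N) N := by
  have hM := mod_skelX hN
  have hcol : ∀ v : Vx top, ty v.1 - c0 < N + 1 := fun v => by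
    have := hty v.1 v.2
    omega
  refine ⟨fun v => ⟨ty v.1 - c0, hcol v⟩, ?_, ?_⟩
  · intro s hs v hv w hw hvw
    obtain ⟨C, hC, hsC⟩ := W_pos_iff.1 ((hM.mem s).1 hs).2
    rw [empty_union] at hsC
    apply Subtype.ext
    refine T.ty_inj C hC (hsC (mem_map_of_mem _ hv)) (hsC (mem_map_of_mem _ hw)) ?_
    have h1 := congrArg Fin.val hvw
    simp only at h1
    have := hty v.1 v.2
    have := hty w.1 w.2
    change ty v.1 = ty w.1
    omega
  · intro s hs t ht hsc htc
    have hs1 := hM.mem_top hN (k := N) (by simp) hs hsc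
    have ht1 := hM.mem_top hN (k := N) (by simp) ht htc
    rw [empty_union] at hs1 ht1
    obtain ⟨g, hg⟩ := T.trans _ hs1 _ ht1
    have hpos : ∀ (g : G) (v : Vx top), 0 < W top {g • v.1} := by
      intro g v
      have h1 := W_smul_of_invariant top T.inv g {v.1}
      rw [image_singleton] at h1
      rw [h1]
      exact v.2
    let e : Equiv.Perm (Vx top) :=
      { toFun := fun v => ⟨g • v.1, hpos g v⟩
        invFun := fun v => ⟨g⁻¹ • v.1, hpos g⁻¹ v⟩
        left_inv := fun v => Subtype.ext (inv_smul_smul g v.1)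
        right_inv := fun v => Subtype.ext (smul_inv_smul g v.1) }
    have hup : ∀ u : Finset (Vx top), (u.map e.toEmbedding).map (Function.Embedding.subtype _) =
        (u.map (Function.Embedding.subtype _)).image (fun x => g • x) := by
      intro u
      ext a
      simp only [mem_map, mem_image]
      constructor
      · rintro ⟨b, ⟨c, hc, rfl⟩, rfl⟩
        exact ⟨c.1, ⟨c, hc, rfl⟩, rfl⟩
      · rintro ⟨b, ⟨c, hc, rfl⟩, rfl⟩
        exact ⟨e c, ⟨c, hc, rfl⟩, rfl⟩
    refine ⟨e, ?_, ?_, ?_⟩
    · intro v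
      apply Fin.ext
      change ty (g • v.1) - c0 = ty v.1 - c0
      rw [T.ty_inv]
    · intro u
      rw [hM.mem, hM.mem, map_nonempty, empty_union, empty_union, hup,
        W_smul_of_invariant top T.inv]
    · apply map_injective (Function.Embedding.subtype _)
      rw [hup]
      exact hg

theorem skeleton_skelX {α : Type} (top : Finset (Finset α)) {d N : ℕ} (hd : d ≤ N) :
    skeleton (skelX top N) d = skelX top d := by
  have h : ∀ s, s ∈ skeleton (skelX top N) d ↔ s ∈ skelX top d := by
    intro s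
    constructor
    · rintro ⟨h1, h2⟩
      exact ⟨h1.1, h2, h1.2.2⟩
    · rintro ⟨h1, h2, h3⟩
      exact ⟨⟨h1, h2.trans (by omega), h3⟩, h2⟩
  exact SetLike.ext h

end Vale.Agent.P067
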